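import Vale.Agent.H17.HadwigerDefs

/-! # Hadwiger's conjecture for graphs with a sparse complement (helper file for P060) -/

namespace Vale.Agent.H17.Hadwiger

open Finset Classical

section
variable {V : Type} [Fintype V] (G : SimpleGraph V)

theorem minor_le_card {t : ℕ} (h : HasCliqueMinor G t) : t ≤ Fintype.card V := by
  obtain ⟨B, h1, h2, -⟩ := h
  have h3 : ∀ i, ∃ x, x ∈ B i := fun i => by
    obtain ⟨x⟩ := (h1 i).nonempty
    exact ⟨x.1, x.2⟩
  choose f hf using h3
  have hinj : Function.Injective f := by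
    intro i j hij
    by_contra hne
    exact Set.disjoint_left.mp (h2 i j hne) (hf i) (hij ▸ hf j)
  simpa using Fintype.card_le_of_injective f hinj

theorem le_hadwiger {t : ℕ} (h : HasCliqueMinor G t) : t ≤ hadwigerNumber G :=
  le_csSup ⟨Fintype.card V, fun _ hs => minor_le_card G hs⟩ h

omit [Fintype V] in
theorem minor_of {ι : Type} [Fintype ι] (B : ι → Set V) (h1 : ∀ i, (G.induce (B i)).Connected)
    (h2 : ∀ i j, i ≠ j → Disjoint (B i) (B j))
    (h3 : ∀ i j, i ≠ j → ∃ x ∈ B i, ∃ y ∈ B j, G.Adj x y) :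
    HasCliqueMinor G (Fintype.card ι) := by
  let e := (Fintype.equivFin ι).symm
  refine ⟨fun i => B (e i), fun i => h1 _, fun i j hij => h2 _ _ ?_, fun i j hij => h3 _ _ ?_⟩
  · exact fun h => hij (e.injective h)
  · exact fun h => hij (e.injective h)

/-- a matching of the complement -/
def IsM (M : Finset (V × V)) : Prop :=
  (∀ p ∈ M, p.1 ≠ p.2 ∧ ¬ G.Adj p.1 p.2) ∧
  ∀ p ∈ M, ∀ q ∈ M, p ≠ q → p.1 ≠ q.1 ∧ p.1 ≠ q.2 ∧ p.2 ≠ q.1 ∧ p.2 ≠ q.2

theorem exists_max : ∃ M : Finset (V × V), IsM G M ∧ ∀ N, IsM G N → N.card ≤ M.card := by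
  have h : ((univ : Finset (Finset (V × V))).filter fun M => IsM G M).Nonempty :=
    ⟨∅, by simp [IsM]⟩
  obtain ⟨M, hM, h1⟩ := Finset.exists_max_image _ Finset.card h
  exact ⟨M, (mem_filter.mp hM).2, fun N hN => h1 N (mem_filter.mpr ⟨mem_univ _, hN⟩)⟩

/-- matched vertices -/
def Mat (M : Finset (V × V)) (x : V) : Prop := ∃ p ∈ M, x = p.1 ∨ x = p.2

variable {G}
variable {M : Finset (V × V)}

omit [Fintype V] in
theorem unmatched_adj (hM : IsM G M) (hmax : ∀ N, IsM G N → N.card ≤ M.card) {x y : V}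
    (hx : ¬ Mat M x) (hy : ¬ Mat M y) (hxy : x ≠ y) : G.Adj x y := by
  by_contra hadj
  have hnot : (x, y) ∉ M := fun h => hx ⟨_, h, Or.inl rfl⟩
  have hx' : ∀ p ∈ M, x ≠ p.1 ∧ x ≠ p.2 := fun p hp =>
    ⟨fun h => hx ⟨p, hp, Or.inl h⟩, fun h => hx ⟨p, hp, Or.inr h⟩⟩
  have hy' : ∀ p ∈ M, y ≠ p.1 ∧ y ≠ p.2 := fun p hp =>
    ⟨fun h => hy ⟨p, hp, Or.inl h⟩, fun h => hy ⟨p, hp, Or.inr h⟩⟩
  have h1 : IsM G (insert (x, y) M) := by
    refine ⟨?_, ?_⟩
    · intro p hp
      rcases mem_insert.mp hp with rfl | hp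
      · exact ⟨hxy, hadj⟩
      · exact hM.1 p hp
    · intro p hp q hq hpq
      rcases mem_insert.mp hp with h | hp
      · rcases mem_insert.mp hq with h' | hq
        · exact absurd (h.trans h'.symm) hpq
        · subst h
          exact ⟨(hx' q hq).1, (hx' q hq).2, (hy' q hq).1, (hy' q hq).2⟩
      · rcases mem_insert.mp hq with h' | hq
        · subst h'
          exact ⟨(hx' p hp).1.symm, (hy' p hp).1.symm, (hx' p hp).2.symm, (hy' p hp).2.symm⟩
        · exact hM.2 p hp q hq hpq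
  have h2 := hmax _ h1
  rw [card_insert_of_notMem hnot] at h2
  omega

/-- colour classes: the pairs of the matching, and the unmatched vertices -/
theorem colorable (hM : IsM G M) :
    G.Colorable (Fintype.card (↥M ⊕ {x : V // ¬ Mat M x})) := by
  let c : V → ↥M ⊕ {x : V // ¬ Mat M x} := fun x =>
    if h : Mat M x then Sum.inl ⟨h.choose, h.choose_spec.1⟩ else Sum.inr ⟨x, h⟩
  refine (SimpleGraph.Coloring.mk c ?_).colorable
  intro x y hxy hc
  simp only [c] at hc
  by_cases hx : Mat M x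
  · by_cases hy : Mat M y
    · rw [dif_pos hx, dif_pos hy] at hc
      have h1 : hx.choose = hy.choose := congrArg Subtype.val (Sum.inl.inj hc)
      have h2 := hx.choose_spec
      have h3 := hy.choose_spec
      rw [← h1] at h3
      have h4 := hM.1 _ h2.1
      rcases h2.2 with h5 | h5 <;> rcases h3.2 with h6 | h6
      · exact G.ne_of_adj hxy (h5.trans h6.symm)
      · rw [h5, h6] at hxy
        exact h4.2 hxy
      · rw [h5, h6] at hxy
        exact h4.2 hxy.symm
      · exact G.ne_of_adj hxy (h5.trans h6.symm)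
    · rw [dif_pos hx, dif_neg hy] at hc
      exact Sum.inl_ne_inr hc
  · by_cases hy : Mat M y
    · rw [dif_neg hx, dif_pos hy] at hc
      exact Sum.inr_ne_inl hc
    · rw [dif_neg hx, dif_neg hy] at hc
      exact G.ne_of_adj hxy (congrArg Subtype.val (Sum.inr.inj hc))

/-- non-neighbours -/
noncomputable def N (G : SimpleGraph V) (a : V) : Finset V := univ.filter fun w => w ≠ a ∧ ¬ G.Adj a w

theorem mem_N {a w : V} : w ∈ N G a ↔ w ≠ a ∧ ¬ G.Adj a w := by simp [N]

theorem N_symm {a w : V} (h : w ∈ N G a) : a ∈ N G w := by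
  rw [mem_N] at h ⊢
  exact ⟨h.1.symm, fun h' => h.2 h'.symm⟩

/-- at distance at least three in the complement -/
def Far (G : SimpleGraph V) (a b : V) : Prop := G.Adj a b ∧ ∀ z, z ∈ N G a → z ∉ N G b

theorem far_symm {a b : V} (h : Far G a b) : Far G b a :=
  ⟨h.1.symm, fun z hz hz' => h.2 z hz' hz⟩

theorem bad_card {D : ℕ} (hD : ∀ v, (N G v).card ≤ D) (a : V) :
    (univ.filter fun x => x ≠ a ∧ ¬ Far G a x).card ≤ D ^ 2 := by
  have hsub : (univ.filter fun x => x ≠ a ∧ ¬ Far G a x) ⊆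
      (N G a).biUnion fun z => insert z ((N G z).erase a) := by
    intro x hx
    rw [mem_filter] at hx
    obtain ⟨-, hxa, hfar⟩ := hx
    rw [mem_biUnion]
    by_cases hadj : G.Adj a x
    · have : ∃ z, z ∈ N G a ∧ z ∈ N G x := by
        by_contra hcon
        apply hfar
        refine ⟨hadj, fun z hz hz' => hcon ⟨z, hz, hz'⟩⟩
      obtain ⟨z, hz, hz'⟩ := this
      exact ⟨z, hz, mem_insert_of_mem (mem_erase.mpr ⟨hxa, N_symm hz'⟩)⟩
    · exact ⟨x, mem_N.mpr ⟨hxa, hadj⟩, mem_insert_self _ _⟩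
  refine (card_le_card hsub).trans ?_
  have h1 : ∀ z ∈ N G a, (insert z ((N G z).erase a)).card ≤ D := by
    intro z hz
    refine (card_insert_le _ _).trans ?_
    rw [card_erase_of_mem (N_symm hz)]
    have h2 := hD z
    have h3 : 0 < (N G z).card := card_pos.mpr ⟨a, N_symm hz⟩
    omega
  refine (card_biUnion_le_card_mul _ _ _ h1).trans ?_
  rw [sq]
  exact Nat.mul_le_mul_right _ (hD a)

theorem hall {D : ℕ} (hM : IsM G M) (hD : ∀ v, (N G v).card ≤ D) (hcard : 2 * D ^ 2 ≤ M.card) :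
    ∃ π : ↥M → V × V, Function.Injective π ∧ ∀ p, π p ∈ M ∧ Far G p.1.1 (π p).2 := by
  let t : ↥M → Finset (V × V) := fun p => M.filter fun q => Far G p.1.1 q.2
  have hne : ∀ p ∈ M, ∀ q ∈ M, p.1 ≠ q.2 := by
    intro p hp q hq
    by_cases h : p = q
    · subst h
      exact (hM.1 p hp).1
    · exact (hM.2 p hp q hq h).2.1
  have hbad : ∀ p ∈ M, (M.filter fun q => ¬ Far G p.1 q.2).card ≤ D ^ 2 := by
    intro p hp
    refine le_trans ?_ (bad_card hD p.1)
    refine card_le_card_of_injOn Prod.snd ?_ ?_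
    · intro q hq
      have hq' := mem_filter.mp hq
      exact mem_filter.mpr ⟨mem_univ _, (hne p hp q hq'.1).symm, hq'.2⟩
    · intro q hq q' hq' h
      by_contra hqq
      exact (hM.2 q (mem_filter.mp hq).1 q' (mem_filter.mp hq').1 hqq).2.2.2 h
  have hcond : ∀ s : Finset ↥M, s.card ≤ (s.biUnion t).card := by
    intro s
    rcases s.eq_empty_or_nonempty with rfl | ⟨p, hp⟩
    · simp
    by_cases hs : s.card ≤ D ^ 2
    · have h1 : (t p).card ≤ (s.biUnion t).card := card_le_card (subset_biUnion_of_mem t hp)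
      have h2 := hbad p.1 p.2
      have h3 : (t p).card + (M.filter fun q => ¬ Far G p.1.1 q.2).card = M.card :=
        card_filter_add_card_filter_not _
      omega
    · have h1 : M ⊆ s.biUnion t := by
        intro q hq
        by_contra hcon
        apply hs
        refine le_trans ?_ (bad_card hD q.2)
        refine card_le_card_of_injOn (fun p : ↥M => p.1.1) ?_ ?_
        · intro p' hp'
          refine mem_filter.mpr ⟨mem_univ _, hne p'.1 p'.2 q hq, fun hfar => hcon ?_⟩
          exact mem_biUnion.mpr ⟨p', hp', mem_filter.mpr ⟨hq, far_symm hfar⟩⟩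
        · intro p1 _ p2 _ h
          by_contra hpp
          have : p1.1 ≠ p2.1 := fun h' => hpp (Subtype.ext h')
          exact (hM.2 _ p1.2 _ p2.2 this).1 h
      refine le_trans ?_ (card_le_card h1)
      have := Finset.card_le_univ s
      simpa using this
  obtain ⟨π, h1, h2⟩ := (Finset.all_card_le_biUnion_card_iff_exists_injective t).mp hcond
  exact ⟨π, h1, fun p => mem_filter.mp (h2 p)⟩

theorem minor {D : ℕ} (hM : IsM G M) (hmax : ∀ N, IsM G N → N.card ≤ M.card)
    (hD : ∀ v, (N G v).card ≤ D) (hcard : 2 * D ^ 2 ≤ M.card) :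
    HasCliqueMinor G (Fintype.card (↥M ⊕ {x : V // ¬ Mat M x})) := by
  obtain ⟨π, hinj, hπ⟩ := hall hM hD hcard
  have hne : ∀ p ∈ M, ∀ q ∈ M, p.1 ≠ q.2 := by
    intro p hp q hq
    by_cases h : p = q
    · subst h
      exact (hM.1 p hp).1
    · exact (hM.2 p hp q hq h).2.1
  -- key fact: every other vertex is adjacent to the pair
  have key : ∀ (p : ↥M) (c : V), c ≠ p.1.1 → c ≠ (π p).2 → G.Adj p.1.1 c ∨ G.Adj (π p).2 c := by
    intro p c h1 h2
    by_contra hcon
    rw [not_or] at hcon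
    exact (hπ p).2.2 c (mem_N.mpr ⟨h1, hcon.1⟩) (mem_N.mpr ⟨h2, hcon.2⟩)
  let B : ↥M ⊕ {x : V // ¬ Mat M x} → Set V := fun i =>
    Sum.elim (fun p : ↥M => {p.1.1, (π p).2}) (fun x => {x.1}) i
  have hdisj : ∀ i j, i ≠ j → Disjoint (B i) (B j) := by
    intro i j hij
    rw [Set.disjoint_left]
    rcases i with p | x <;> rcases j with q | y
    · have hpq : p.1 ≠ q.1 := fun h => hij (congrArg Sum.inl (Subtype.ext h))
      have hππ : π p ≠ π q := fun h => hij (congrArg Sum.inl (hinj h))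
      intro c hc hc'
      simp only [B, Sum.elim_inl, Set.mem_insert_iff, Set.mem_singleton_iff] at hc hc'
      rcases hc with rfl | rfl <;> rcases hc' with h | h
      · exact (hM.2 _ p.2 _ q.2 hpq).1 h
      · exact hne _ p.2 _ (hπ q).1 h
      · exact hne _ q.2 _ (hπ p).1 h.symm
      · exact (hM.2 _ (hπ p).1 _ (hπ q).1 hππ).2.2.2 h
    · intro c hc hc'
      simp only [B, Sum.elim_inl, Sum.elim_inr, Set.mem_insert_iff, Set.mem_singleton_iff] at hc hc'
      rcases hc with h | h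
      · exact y.2 ⟨p.1, p.2, Or.inl (hc' ▸ h)⟩
      · exact y.2 ⟨π p, (hπ p).1, Or.inr (hc' ▸ h)⟩
    · intro c hc hc'
      simp only [B, Sum.elim_inl, Sum.elim_inr, Set.mem_insert_iff, Set.mem_singleton_iff] at hc hc'
      rcases hc' with h | h
      · exact x.2 ⟨q.1, q.2, Or.inl (hc ▸ h)⟩
      · exact x.2 ⟨π q, (hπ q).1, Or.inr (hc ▸ h)⟩
    · intro c hc hc'
      simp only [B, Sum.elim_inr, Set.mem_singleton_iff] at hc hc'
      exact hij (congrArg Sum.inr (Subtype.ext (hc.symm.trans hc')))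
  have hpair : ∀ (p : ↥M) (c : V), c ∉ B (Sum.inl p) → ∃ x ∈ B (Sum.inl p), G.Adj x c := by
    intro p c hc
    simp only [B, Sum.elim_inl, Set.mem_insert_iff, Set.mem_singleton_iff, not_or] at hc
    rcases key p c hc.1 hc.2 with h | h
    · exact ⟨_, by simp [B], h⟩
    · exact ⟨_, by simp [B], h⟩
  have hnon : ∀ i, (B i).Nonempty := by
    intro i
    rcases i with p | x
    · exact ⟨p.1.1, by simp [B]⟩
    · exact ⟨x.1, by simp [B]⟩
  refine minor_of G B ?_ hdisj ?_
  · intro i
    rcases i with p | x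
    · exact SimpleGraph.induce_pair_connected_of_adj (hπ p).2.1
    · haveI : Subsingleton (B (Sum.inr x)) := by
        simp only [B, Sum.elim_inr]
        infer_instance
      haveI : Nonempty (B (Sum.inr x)) := (hnon _).to_subtype
      exact ⟨fun a b => by rw [Subsingleton.elim a b]⟩
  · intro i j hij
    obtain ⟨c, hc⟩ := hnon j
    rcases i with p | x
    · obtain ⟨z, hz, hz'⟩ := hpair p c (fun h => Set.disjoint_left.mp (hdisj _ _ hij) h hc)
      exact ⟨z, hz, c, hc, hz'⟩
    · rcases j with q | y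
      · obtain ⟨z, hz, hz'⟩ := hpair q x.1 (fun h =>
          Set.disjoint_left.mp (hdisj _ _ hij) (by simp [B]) h)
        exact ⟨x.1, by simp [B], z, hz, hz'.symm⟩
      · refine ⟨x.1, by simp [B], y.1, by simp [B], ?_⟩
        exact unmatched_adj hM hmax x.2 y.2 fun h => hij (congrArg Sum.inr (Subtype.ext h))

theorem card_lower {D : ℕ} (hM : IsM G M) (hmax : ∀ N, IsM G N → N.card ≤ M.card)
    (hD : ∀ v, (N G v).card ≤ D)
    (hs : 4 * D ^ 3 ≤ (univ.filter fun v => (N G v).Nonempty).card) : 2 * D ^ 2 ≤ M.card := by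
  have hsub : (univ.filter fun v => (N G v).Nonempty) ⊆
      M.biUnion fun p => N G p.1 ∪ N G p.2 := by
    intro v hv
    obtain ⟨w, hw⟩ := (mem_filter.mp hv).2
    rw [mem_biUnion]
    have hpN : ∀ p ∈ M, p.2 ∈ N G p.1 := fun p hp =>
      mem_N.mpr ⟨(hM.1 p hp).1.symm, (hM.1 p hp).2⟩
    by_cases hv' : Mat M v
    · obtain ⟨p, hp, h | h⟩ := hv'
      · exact ⟨p, hp, mem_union_right _ (h ▸ N_symm (hpN p hp))⟩
      · exact ⟨p, hp, mem_union_left _ (h ▸ hpN p hp)⟩
    · by_cases hw' : Mat M w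
      · obtain ⟨p, hp, h | h⟩ := hw'
        · exact ⟨p, hp, mem_union_left _ (h ▸ N_symm hw)⟩
        · exact ⟨p, hp, mem_union_right _ (h ▸ N_symm hw)⟩
      · exact absurd (unmatched_adj hM hmax hv' hw' (mem_N.mp hw).1.symm) (mem_N.mp hw).2
  have h1 := card_le_card hsub
  have h2 : (M.biUnion fun p => N G p.1 ∪ N G p.2).card ≤ M.card * (2 * D) := by
    refine card_biUnion_le_card_mul _ _ _ fun p _ => ?_
    refine (card_union_le _ _).trans ?_
    have := hD p.1
    have := hD p.2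
    omega
  rcases Nat.eq_zero_or_pos D with h0 | h0
  · subst h0
    simp
  · have h3 : (2 * D ^ 2) * (2 * D) ≤ M.card * (2 * D) := by
      calc (2 * D ^ 2) * (2 * D) = 4 * D ^ 3 := by ring
        _ ≤ _ := hs.trans (h1.trans h2)
    exact Nat.le_of_mul_le_mul_right h3 (by omega)

theorem card_V_le (M : Finset (V × V)) :
    Fintype.card V ≤ 2 * Fintype.card (↥M ⊕ {x : V // ¬ Mat M x}) := by
  have h1 : (univ.filter fun x : V => Mat M x).card ≤ 2 * M.card := by
    have hsub : (univ.filter fun x : V => Mat M x) ⊆ M.image Prod.fst ∪ M.image Prod.snd := by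
      intro x hx
      obtain ⟨p, hp, h | h⟩ := (mem_filter.mp hx).2
      · exact mem_union_left _ (mem_image.mpr ⟨p, hp, h.symm⟩)
      · exact mem_union_right _ (mem_image.mpr ⟨p, hp, h.symm⟩)
    refine (card_le_card hsub).trans ((card_union_le _ _).trans ?_)
    have := card_image_le (s := M) (f := Prod.fst)
    have := card_image_le (s := M) (f := Prod.snd)
    omega
  have h2 : (univ.filter fun x : V => Mat M x).card + (univ.filter fun x : V => ¬ Mat M x).card
      = Fintype.card V := by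
    rw [card_filter_add_card_filter_not, card_univ]
  have h3 : Fintype.card {x : V // ¬ Mat M x} = (univ.filter fun x : V => ¬ Mat M x).card :=
    Fintype.card_subtype _
  rw [Fintype.card_sum, h3, Fintype.card_coe]
  omega

end

end Vale.Agent.H17.Hadwiger
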