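import Vale.Agent.H17.HadwigerDense

/-! # Hadwiger's conjecture: second form of the sufficient condition (helper file for P060) -/

namespace Vale.Agent.H17.Hadwiger

open Finset Classical

section
variable {V : Type} [Fintype V] {G : SimpleGraph V} {M : Finset (V × V)}

theorem hallB {B : ℕ} (hM : IsM G M)
    (hB : ∀ a, (univ.filter fun x => x ≠ a ∧ ¬ Far G a x).card ≤ B) (hcard : 2 * B ≤ M.card) :
    ∃ π : ↥M → V × V, Function.Injective π ∧ ∀ p, π p ∈ M ∧ Far G p.1.1 (π p).2 := by
  let t : ↥M → Finset (V × V) := fun p => M.filter fun q => Far G p.1.1 q.2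
  have hne : ∀ p ∈ M, ∀ q ∈ M, p.1 ≠ q.2 := by
    intro p hp q hq
    by_cases h : p = q
    · subst h
      exact (hM.1 p hp).1
    · exact (hM.2 p hp q hq h).2.1
  have hbad : ∀ p ∈ M, (M.filter fun q => ¬ Far G p.1 q.2).card ≤ B := by
    intro p hp
    refine le_trans ?_ (hB p.1)
    refine card_le_card_of_injOn Prod.snd ?_ ?_
    · intro q hq
      have hq' := mem_filter.mp hq
      exact mem_filter.mpr ⟨mem_univ _, (hne p hp q hq'.1).symm, hq'.2⟩
    · intro q hq q' hq' h
      by_contra hqq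
      exact (hM.2 q (mem_filter.mp hq).1 q' (mem_filter.mp hq').1 hqq).2.2.2 h
  have hcond : ∀ s : Finset ↥M, s.card ≤ (s.biUnion t).card := by
    intro s
    rcases s.eq_empty_or_nonempty with rfl | ⟨p, hp⟩
    · simp
    by_cases hs : s.card ≤ B
    · have h1 : (t p).card ≤ (s.biUnion t).card := card_le_card (subset_biUnion_of_mem t hp)
      have h2 := hbad p.1 p.2
      have h3 : (t p).card + (M.filter fun q => ¬ Far G p.1.1 q.2).card = M.card :=
        card_filter_add_card_filter_not _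
      omega
    · have h1 : M ⊆ s.biUnion t := by
        intro q hq
        by_contra hcon
        apply hs
        refine le_trans ?_ (hB q.2)
        refine card_le_card_of_injOn (fun p : ↥M => p.1.1) ?_ ?_
        · intro p' hp'
          refine mem_filter.mpr ⟨mem_univ _, hne p'.1 p'.2 q hq, fun hfar => hcon ?_⟩
          exact mem_biUnion.mpr ⟨p', hp', mem_filter.mpr ⟨hq, far_symm hfar⟩⟩
        · intro p1 _ p2 _ h
          by_contra hpp
          have : p1.1 ≠ p2.1 := fun h' => hpp (Subtype.ext h')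
          exact (hM.2 _ p1.2 _ p2.2 this).1 h
      refine le_trans ?_ (card_le_card h1)
      have := Finset.card_le_univ s
      simpa using this
  obtain ⟨π, h1, h2⟩ := (Finset.all_card_le_biUnion_card_iff_exists_injective t).mp hcond
  exact ⟨π, h1, fun p => mem_filter.mp (h2 p)⟩

theorem minorB {D : ℕ} (hM : IsM G M) (hmax : ∀ N, IsM G N → N.card ≤ M.card)
    (hB : ∀ a, (univ.filter fun x => x ≠ a ∧ ¬ Far G a x).card ≤ D) (hcard : 2 * D ≤ M.card) :
    HasCliqueMinor G (Fintype.card (↥M ⊕ {x : V // ¬ Mat M x})) := by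
  obtain ⟨π, hinj, hπ⟩ := hallB hM hB hcard
  have hne : ∀ p ∈ M, ∀ q ∈ M, p.1 ≠ q.2 := by
    intro p hp q hq
    by_cases h : p = q
    · subst h
      exact (hM.1 p hp).1
    · exact (hM.2 p hp q hq h).2.1
  -- key fact: every other vertex is adjacent to the pair
  have key : ∀ (p : ↥M) (c : V), c ≠ p.1.1 → c ≠ (π p).2 → G.Adj p.1.1 c ∨ G.Adj (π p).2 c := by
    intro p c h1 h2
    by_contra hcon
    rw [not_or] at hcon
    exact (hπ p).2.2 c (mem_N.mpr ⟨h1, hcon.1⟩) (mem_N.mpr ⟨h2, hcon.2⟩)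
  let B : ↥M ⊕ {x : V // ¬ Mat M x} → Set V := fun i =>
    Sum.elim (fun p : ↥M => {p.1.1, (π p).2}) (fun x => {x.1}) i
  have hdisj : ∀ i j, i ≠ j → Disjoint (B i) (B j) := by
    intro i j hij
    rw [Set.disjoint_left]
    rcases i with p | x <;> rcases j with q | y
    · have hpq : p.1 ≠ q.1 := fun h => hij (congrArg Sum.inl (Subtype.ext h))
      have hππ : π p ≠ π q := fun h => hij (congrArg Sum.inl (hinj h))
      intro c hc hc'
      simp only [B, Sum.elim_inl, Set.mem_insert_iff, Set.mem_singleton_iff] at hc hc'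
      rcases hc with rfl | rfl <;> rcases hc' with h | h
      · exact (hM.2 _ p.2 _ q.2 hpq).1 h
      · exact hne _ p.2 _ (hπ q).1 h
      · exact hne _ q.2 _ (hπ p).1 h.symm
      · exact (hM.2 _ (hπ p).1 _ (hπ q).1 hππ).2.2.2 h
    · intro c hc hc'
      simp only [B, Sum.elim_inl, Sum.elim_inr, Set.mem_insert_iff, Set.mem_singleton_iff] at hc hc'
      rcases hc with h | h
      · exact y.2 ⟨p.1, p.2, Or.inl (hc' ▸ h)⟩
      · exact y.2 ⟨π p, (hπ p).1, Or.inr (hc' ▸ h)⟩
    · intro c hc hc'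
      simp only [B, Sum.elim_inl, Sum.elim_inr, Set.mem_insert_iff, Set.mem_singleton_iff] at hc hc'
      rcases hc' with h | h
      · exact x.2 ⟨q.1, q.2, Or.inl (hc ▸ h)⟩
      · exact x.2 ⟨π q, (hπ q).1, Or.inr (hc ▸ h)⟩
    · intro c hc hc'
      simp only [B, Sum.elim_inr, Set.mem_singleton_iff] at hc hc'
      exact hij (congrArg Sum.inr (Subtype.ext (hc.symm.trans hc')))
  have hpair : ∀ (p : ↥M) (c : V), c ∉ B (Sum.inl p) → ∃ x ∈ B (Sum.inl p), G.Adj x c := by
    intro p c hc
    simp only [B, Sum.elim_inl, Set.mem_insert_iff, Set.mem_singleton_iff, not_or] at hc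
    rcases key p c hc.1 hc.2 with h | h
    · exact ⟨_, by simp [B], h⟩
    · exact ⟨_, by simp [B], h⟩
  have hnon : ∀ i, (B i).Nonempty := by
    intro i
    rcases i with p | x
    · exact ⟨p.1.1, by simp [B]⟩
    · exact ⟨x.1, by simp [B]⟩
  refine minor_of G B ?_ hdisj ?_
  · intro i
    rcases i with p | x
    · exact SimpleGraph.induce_pair_connected_of_adj (hπ p).2.1
    · haveI : Subsingleton (B (Sum.inr x)) := by
        simp only [B, Sum.elim_inr]
        infer_instance
      haveI : Nonempty (B (Sum.inr x)) := (hnon _).to_subtype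
      exact ⟨fun a b => by rw [Subsingleton.elim a b]⟩
  · intro i j hij
    obtain ⟨c, hc⟩ := hnon j
    rcases i with p | x
    · obtain ⟨z, hz, hz'⟩ := hpair p c (fun h => Set.disjoint_left.mp (hdisj _ _ hij) h hc)
      exact ⟨z, hz, c, hc, hz'⟩
    · rcases j with q | y
      · obtain ⟨z, hz, hz'⟩ := hpair q x.1 (fun h =>
          Set.disjoint_left.mp (hdisj _ _ hij) (by simp [B]) h)
        exact ⟨x.1, by simp [B], z, hz, hz'.symm⟩
      · refine ⟨x.1, by simp [B], y.1, by simp [B], ?_⟩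
        exact unmatched_adj hM hmax x.2 y.2 fun h => hij (congrArg Sum.inr (Subtype.ext h))

end

end Vale.Agent.H17.Hadwiger
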