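import Mathlib

namespace Vale.Agent.H17.Howie

universe u

def Fam (G H : Type u) : Bool → Type u
  | false => H
  | true => G

instance famGroup (G H : Type u) [Group G] [Group H] : ∀ b, Group (Fam G H b)
  | false => inferInstanceAs (Group H)
  | true => inferInstanceAs (Group G)

def famHom {C G H : Type u} [Group C] [Group G] [Group H] (f : C →* G) (g : C →* H) :
    ∀ b, C →* Fam G H b
  | false => g
  | true => f

lemma exists_amalgam_aux {C G H : Type u} [Group C] [Group G] [Group H] (f : C →* G)
    (g : C →* H) (hf : Function.Injective f) (hg : Function.Injective g) :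
    ∃ (K : Type u) (_ : Group K) (a : G →* K) (b : H →* K), Function.Injective a ∧
      a.comp f = b.comp g := by
  have hφ : ∀ i, Function.Injective (famHom f g i) := by
    intro i
    cases i
    · exact hg
    · exact hf
  refine ⟨Monoid.PushoutI (famHom f g), inferInstance,
    (Monoid.PushoutI.of (φ := famHom f g) true : Fam G H true →* _),
    (Monoid.PushoutI.of (φ := famHom f g) false : Fam G H false →* _),
    Monoid.PushoutI.of_injective hφ true, ?_⟩
  have h1 := Monoid.PushoutI.of_comp_eq_base (φ := famHom f g) true
  have h2 := Monoid.PushoutI.of_comp_eq_base (φ := famHom f g) false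
  exact h1.trans h2.symm

end Vale.Agent.H17.Howie
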