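import Mathlib

/-!
Definitions for Howie's conjecture on nonsingular systems of equations over groups.
`Monoid.Coprod G H` is Mathlib's free product of `G` and `H`.
-/

namespace Vale.Agent.H17.HowieConj

open Monoid

universe u

/-- The exponent-sum homomorphism `G ∗ F_n → ℤⁿ`: it kills `G` and sends `x_j` to `e_j`. -/
def expSum (G : Type u) [Group G] (n : ℕ) :
    Coprod G (FreeGroup (Fin n)) →* Multiplicative (Fin n → ℤ) :=
  Coprod.lift 1 (FreeGroup.lift fun j => Multiplicative.ofAdd (Pi.single j 1))

/-- The exponent-sum matrix of a system of `m` equations in `n` unknowns, over `ℚ`. -/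
def expMatrix {G : Type u} [Group G] {m n : ℕ} (w : Fin m → Coprod G (FreeGroup (Fin n))) :
    Matrix (Fin m) (Fin n) ℚ :=
  Matrix.of fun i j => ((Multiplicative.toAdd (expSum G n (w i)) j : ℤ) : ℚ)

/-- The system is nonsingular: its exponent-sum matrix has rational rank `m`. -/
def Nonsingular {G : Type u} [Group G] {m n : ℕ}
    (w : Fin m → Coprod G (FreeGroup (Fin n))) : Prop :=
  (expMatrix w).rank = m

/-- The system is solvable over `G`: there are an overgroup `H` of `G` and elements of `H`
at which all `w i` evaluate to `1`. -/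
def SolvableOver {G : Type u} [Group G] {m n : ℕ}
    (w : Fin m → Coprod G (FreeGroup (Fin n))) : Prop :=
  ∃ (H : Type u) (_ : Group H) (φ : G →* H) (h : Fin n → H), Function.Injective φ ∧
    ∀ i, Coprod.lift φ (FreeGroup.lift h) (w i) = 1

/-- Howie's conjecture holds for `G`: every nonsingular finite system over `G` is
solvable over `G`. -/
def HowieHolds (G : Type u) [Group G] : Prop :=
  ∀ (m n : ℕ) (w : Fin m → Coprod G (FreeGroup (Fin n))), Nonsingular w → SolvableOver w

/-- `G` has an epimorphism onto the infinite cyclic group. -/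
def MapsOntoZ (G : Type u) [Group G] : Prop :=
  ∃ f : G →* Multiplicative ℤ, Function.Surjective f

/-- Every nontrivial finitely generated subgroup maps onto `ℤ`. -/
def LocallyIndicable (G : Type u) [Group G] : Prop :=
  ∀ P : Subgroup G, P.FG → P ≠ ⊥ → MapsOntoZ P

/-- All coefficients of the system over `G` lie in the subgroup `C`. -/
def CoefficientsIn {G : Type u} [Group G] (C : Subgroup G) {m n : ℕ}
    (w : Fin m → Coprod G (FreeGroup (Fin n))) : Prop :=
  ∀ i, w i ∈ (Coprod.map C.subtype (MonoidHom.id (FreeGroup (Fin n)))).range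

end Vale.Agent.H17.HowieConj
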