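import Vale.Agent.H17.HowieMain
import Vale.Agent.H17.HowieAmalgam
import Vale.Agent.H17.HowieStatement

namespace Vale.Agent.H17.HowieConj

open Monoid

universe u

section Bridge

open Vale.Agent.H17.Howie

variable {G : Type u} [Group G]

lemma chi_eq {m n : ℕ} (w : Fin m → Coprod G (FreeGroup (Fin n))) (c : Fin n → ℚ) (i : Fin m) :
    chi c (w i) = Multiplicative.ofAdd ((expMatrix w).mulVec c i) := by
  let L : (Fin n → ℤ) →+ ℚ :=
    { toFun := fun v => ∑ j, (v j : ℚ) * c j
      map_zero' := by simp
      map_add' := by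
        intro x y
        simp only [Pi.add_apply, Int.cast_add, add_mul, Finset.sum_add_distrib] }
  have h : (AddMonoidHom.toMultiplicative L).comp (expSum G n) = chi (G := G) c := by
    apply Coprod.hom_ext
    · ext a; simp [expSum, chi]
    · ext j
      simp only [expSum, chi, MonoidHom.comp_apply, Coprod.lift_apply_inr,
        FreeGroup.lift_apply_of, AddMonoidHom.toMultiplicative_apply_apply, toAdd_ofAdd]
      congr 1
      change ∑ j', ((Pi.single (M := fun _ => ℤ) j 1 j' : ℤ) : ℚ) * c j' = c j
      rw [Finset.sum_eq_single j]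
      · simp
      · intro b _ hb; simp [Pi.single_eq_of_ne hb]
      · simp
  rw [← h]
  rfl

lemma nonsingular_iff {m n : ℕ} (w : Fin m → Coprod G (FreeGroup (Fin n))) :
    Nonsingular w ↔ NS ℚ w := by
  have h1 : NS ℚ w ↔ Function.Surjective (expMatrix w).mulVecLin := by
    constructor
    · intro h b
      obtain ⟨c, hc⟩ := h b
      refine ⟨c, funext fun i => ?_⟩
      have := hc i
      rw [chi_eq] at this
      exact Multiplicative.ofAdd.injective this
    · intro h b
      obtain ⟨c, hc⟩ := h b
      refine ⟨c, fun i => ?_⟩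
      rw [chi_eq, ← hc]
      rfl
  rw [h1, Nonsingular, Matrix.rank, ← LinearMap.range_eq_top]
  constructor
  · intro h
    apply Submodule.eq_top_of_finrank_eq
    rw [h]; simp
  · intro h
    rw [h]; simp

lemma howieHolds_iff : HowieHolds G ↔ HoweF ℚ G := by
  constructor
  · intro h I J _ _ w hw
    obtain ⟨m, ⟨e⟩⟩ := Finite.exists_equiv_fin I
    obtain ⟨n, ⟨e'⟩⟩ := Finite.exists_equiv_fin J
    have hchi : ∀ (c : Fin n → ℚ) (x : Coprod G (FreeGroup J)),
        chi c (Coprod.map (MonoidHom.id G) (FreeGroup.map e') x) = chi (c ∘ e') x := by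
      intro c x
      have : (chi c).comp (Coprod.map (MonoidHom.id G) (FreeGroup.map e')) =
          chi (G := G) (c ∘ e') := by
        apply Coprod.hom_ext
        · ext; simp [chi]
        · ext; simp [chi]
      exact DFunLike.congr_fun this x
    obtain ⟨H, _, φ, x, hφ, hx⟩ := h m n
      (fun i => Coprod.map (MonoidHom.id G) (FreeGroup.map e') (w (e.symm i))) (by
        rw [nonsingular_iff]
        intro b
        obtain ⟨c, hc⟩ := hw (b ∘ e)
        refine ⟨c ∘ e'.symm, fun i => ?_⟩
        rw [hchi]
        have : (c ∘ e'.symm) ∘ e' = c := by funext j; simp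
        rw [this, hc]; simp)
    refine ⟨H, inferInstance, φ, x ∘ e', hφ, fun i => ?_⟩
    have h1 := hx (e i)
    simp only [Equiv.symm_apply_apply] at h1
    rw [← h1]
    have : (Coprod.lift φ (FreeGroup.lift x)).comp
        (Coprod.map (MonoidHom.id G) (FreeGroup.map e')) =
        Coprod.lift φ (FreeGroup.lift (x ∘ e')) := by
      apply Coprod.hom_ext
      · ext; simp
      · ext; simp
    exact (DFunLike.congr_fun this (w i)).symm
  · intro h m n w hw
    exact h (Fin m) (Fin n) w ((nonsingular_iff w).1 hw)

lemma no_char_of_not_mapsOntoZ {P : Type u} [Group P]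
    (h : ∀ θ : P →* Multiplicative ℚ, θ = 1) : ¬ MapsOntoZ P := by
  rintro ⟨f, hf⟩
  obtain ⟨x, hx⟩ := hf (Multiplicative.ofAdd 1)
  have := h ((AddMonoidHom.toMultiplicative (Int.castAddHom ℚ)).comp f)
  have h1 := DFunLike.congr_fun this x
  rw [MonoidHom.comp_apply, hx] at h1
  have h2 : ((1 : ℤ) : ℚ) = 0 := Multiplicative.ofAdd.injective h1
  norm_num at h2

/-- abelian groups satisfy Howie's conjecture -/
lemma howeF_of_comm {N : Type u} [Group N] (hN : ∀ a b : N, a * b = b * a) : HoweF ℚ N := by
  intro I J _ _ w hw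
  let _ : CommGroup N := { (inferInstance : Group N) with mul_comm := hN }
  let A := Additive N
  let X := CharacterModule A
  -- solve coordinatewise in ℚ/ℤ
  have key : ∀ χ : X, ∃ y : J → AddCircle (1 : ℚ), ∀ i,
      Coprod.lift (AddMonoidHom.toMultiplicativeRight χ)
        (FreeGroup.lift fun j => Multiplicative.ofAdd (y j)) (w i) = 1 := by
    intro χ
    have hsurj : Function.Surjective (QuotientAddGroup.mk : ℚ → AddCircle (1 : ℚ)) :=
      QuotientAddGroup.mk_surjective
    let cf : Coprod N (FreeGroup J) →* Multiplicative (AddCircle (1 : ℚ)) :=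
      Coprod.lift (AddMonoidHom.toMultiplicativeRight χ) 1
    choose b hb using fun i => hsurj (Multiplicative.toAdd (cf (w i)))
    obtain ⟨c, hc⟩ := hw (fun i => - b i)
    refine ⟨fun j => ((c j : ℚ) : AddCircle (1 : ℚ)), fun i => ?_⟩
    let red : Multiplicative ℚ →* Multiplicative (AddCircle (1 : ℚ)) :=
      AddMonoidHom.toMultiplicative (QuotientAddGroup.mk' _)
    have hsplit : Coprod.lift (AddMonoidHom.toMultiplicativeRight χ)
        (FreeGroup.lift fun j => Multiplicative.ofAdd ((c j : ℚ) : AddCircle (1 : ℚ))) =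
        cf * (red.comp (chi c)) := by
      apply Coprod.hom_ext
      · ext a
        simp [cf, chi]
      · ext j
        simp [cf, chi, red]
    rw [hsplit, MonoidHom.mul_apply, MonoidHom.comp_apply, hc i]
    have h1 : cf (w i) = Multiplicative.ofAdd ((b i : ℚ) : AddCircle (1 : ℚ)) := by
      rw [hb i]; rfl
    rw [h1]
    change Multiplicative.ofAdd ((b i : ℚ) : AddCircle (1 : ℚ)) *
      Multiplicative.ofAdd (((-b i : ℚ)) : AddCircle (1 : ℚ)) = 1
    rw [← ofAdd_add, ← AddCircle.coe_add, add_neg_cancel]
    rfl
  choose y hy using key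
  refine ⟨∀ _ : X, Multiplicative (AddCircle (1 : ℚ)), inferInstance, ?_,
    fun j χ => Multiplicative.ofAdd (y χ j), ?_, ?_⟩
  · exact MonoidHom.mk' (fun a χ => Multiplicative.ofAdd (χ (Additive.ofMul a)))
      (by intro a b; funext χ; simp)
  · rw [injective_iff_map_eq_one]
    intro a ha
    by_contra hne
    have : (Additive.ofMul a : A) ≠ 0 := by
      intro h0; exact hne (Additive.ofMul.injective h0)
    obtain ⟨χ, hχ⟩ := CharacterModule.exists_character_apply_ne_zero_of_ne_zero this
    apply hχ
    exact Multiplicative.ofAdd.injective (congrFun ha χ)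
  · intro i
    funext χ
    rw [Pi.one_apply, ← hy χ i]
    have : (Pi.evalMonoidHom (fun _ : X => Multiplicative (AddCircle (1 : ℚ))) χ).comp
        (Coprod.lift (MonoidHom.mk' (fun (a : N) (χ : X) =>
          Multiplicative.ofAdd (χ (Additive.ofMul a))) (by intro a b; funext χ; simp))
        (FreeGroup.lift fun j χ => Multiplicative.ofAdd (y χ j))) =
        Coprod.lift (AddMonoidHom.toMultiplicativeRight χ)
        (FreeGroup.lift fun j => Multiplicative.ofAdd (y χ j)) := by
      apply Coprod.hom_ext
      · ext a; rfl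
      · ext j; simp
    exact DFunLike.congr_fun this (w i)

/-- amalgamation of two overgroups of `C` -/
lemma exists_amalgam {C G H : Type u} [Group C] [Group G] [Group H] (f : C →* G) (g : C →* H)
    (hf : Function.Injective f) (hg : Function.Injective g) :
    ∃ (K : Type u) (_ : Group K) (a : G →* K) (b : H →* K), Function.Injective a ∧
      a.comp f = b.comp g :=
  Vale.Agent.H17.Howie.exists_amalgam_aux f g hf hg

lemma solvable_of_coefficients (C : Subgroup G) (hC : HowieHolds C) {m n : ℕ}
    (w : Fin m → Coprod G (FreeGroup (Fin n))) (hw : CoefficientsIn C w)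
    (hns : Nonsingular w) : SolvableOver w := by
  choose v hv using hw
  have hns' : Nonsingular v := by
    rw [nonsingular_iff] at hns ⊢
    intro b
    obtain ⟨c, hc⟩ := hns b
    refine ⟨c, fun i => ?_⟩
    rw [← hc i, ← hv i, chi_map]
  obtain ⟨H, _, φ, x, hφ, hx⟩ := hC m n v hns'
  obtain ⟨K, _, a, b, ha, hab⟩ := exists_amalgam C.subtype φ C.subtype_injective hφ
  refine ⟨K, inferInstance, a, fun j => b (x j), ha, fun i => ?_⟩
  rw [← hv i, lift_map, hab]
  have : Coprod.lift (b.comp φ) (FreeGroup.lift fun j => b (x j)) =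
      b.comp (Coprod.lift φ (FreeGroup.lift x)) := by
    apply Coprod.hom_ext
    · ext; simp
    · ext; simp
  rw [this, MonoidHom.comp_apply, hx i, map_one]

end Bridge

theorem main_result :
    -- (1) the criterion, group by group
    (∀ (G : Type u) [Group G],
      HowieHolds G ↔ ∀ P : Subgroup G, P.FG → ¬ MapsOntoZ P → HowieHolds P) ∧
    -- (2) closure under extensions with locally indicable quotient
    (∀ (G : Type u) [Group G] (N : Subgroup G) [N.Normal],
      LocallyIndicable (G ⧸ N) → HowieHolds N → HowieHolds G) ∧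
    -- (3) an unconditional class: abelian-by-(locally indicable) groups
    (∀ (G : Type u) [Group G] (N : Subgroup G) [N.Normal],
      LocallyIndicable (G ⧸ N) → (∀ a b : N, a * b = b * a) → HowieHolds G) ∧
    -- (4) over an arbitrary group only the subgroup containing the coefficients matters
    (∀ (G : Type u) [Group G] (C : Subgroup G), HowieHolds C →
      ∀ (m n : ℕ) (w : Fin m → Coprod G (FreeGroup (Fin n))),
        CoefficientsIn C w → Nonsingular w → SolvableOver w) := by
  have h1 : ∀ (G : Type u) [Group G],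
      (∀ P : Subgroup G, P.FG → ¬ MapsOntoZ P → HowieHolds P) → HowieHolds G := by
    intro G _ h
    rw [howieHolds_iff]
    apply Vale.Agent.H17.Howie.howeF_of_subgroups
    intro P hfg hP
    rw [← howieHolds_iff]
    exact h P hfg (no_char_of_not_mapsOntoZ hP)
  have h2 : ∀ (G : Type u) [Group G] (N : Subgroup G) [N.Normal],
      LocallyIndicable (G ⧸ N) → HowieHolds N → HowieHolds G := by
    intro G _ N _ hLI hN
    apply h1 G
    intro P hfg hP
    have hle : P ≤ N := by
      by_contra hnle
      have hmap : (P.map (QuotientGroup.mk' N)).FG := by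
        rw [Subgroup.fg_iff] at hfg ⊢
        obtain ⟨S, hS, hfin⟩ := hfg
        exact ⟨(QuotientGroup.mk' N) '' S, by rw [← MonoidHom.map_closure, hS], hfin.image _⟩
      have hne : P.map (QuotientGroup.mk' N) ≠ ⊥ := by
        intro hbot
        apply hnle
        rw [Subgroup.map_eq_bot_iff, QuotientGroup.ker_mk'] at hbot
        exact hbot
      obtain ⟨f, hf⟩ := hLI _ hmap hne
      apply hP
      refine ⟨f.comp ((QuotientGroup.mk' N).subgroupMap P), ?_⟩
      exact hf.comp (MonoidHom.subgroupMap_surjective _ _)
    rw [howieHolds_iff] at hN ⊢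
    exact hN.of_injective (Subgroup.inclusion hle) (Subgroup.inclusion_injective hle)
  refine ⟨?_, h2, ?_, fun G _ C hC m n w hw hns => solvable_of_coefficients C hC w hw hns⟩
  · intro G _
    refine ⟨?_, h1 G⟩
    intro hG P _ _
    rw [howieHolds_iff] at hG ⊢
    exact hG.of_injective P.subtype P.subtype_injective
  · intro G _ N _ hLI hab
    refine h2 G N hLI ?_
    rw [howieHolds_iff]
    exact howeF_of_comm hab

end Vale.Agent.H17.HowieConj
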