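import Vale.Agent.H17.HowieStar

namespace Vale.Agent.H17.Howie

universe u v

open Monoid

section Defs

/-- the character `G ∗ F(J) → 𝔽` killing `G` and sending the `j`-th letter to `c j` -/
def chi {G : Type*} [Group G] {J : Type*} {𝔽 : Type*} [Field 𝔽] (c : J → 𝔽) :
    Coprod G (FreeGroup J) →* Multiplicative 𝔽 :=
  Coprod.lift 1 (FreeGroup.lift fun j => Multiplicative.ofAdd (c j))

/-- Nonsingular over the field `𝔽` (row rank of the exponent matrix is full). -/
def NS (𝔽 : Type*) [Field 𝔽] {G : Type*} [Group G] {I J : Type*}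
    (w : I → Coprod G (FreeGroup J)) : Prop :=
  ∀ b : I → 𝔽, ∃ c : J → 𝔽, ∀ i, chi c (w i) = Multiplicative.ofAdd (b i)

/-- Solvable over `G`. -/
def Solv {G : Type u} [Group G] {I J : Type*} (w : I → Coprod G (FreeGroup J)) : Prop :=
  ∃ (H : Type u) (_ : Group H) (φ : G →* H) (x : J → H), Function.Injective φ ∧
    ∀ i, Coprod.lift φ (FreeGroup.lift x) (w i) = 1

/-- All finite `𝔽`-nonsingular systems over `G` are solvable over `G`. -/
def HoweF (𝔽 : Type*) [Field 𝔽] (G : Type u) [Group G] : Prop :=
  ∀ (I J : Type) [Finite I] [Finite J] (w : I → Coprod G (FreeGroup J)), NS 𝔽 w → Solv w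

end Defs

section Transport

variable {𝔽 : Type*} [Field 𝔽]

lemma chi_map {G G' : Type*} [Group G] [Group G'] {J : Type*} (f : G →* G') (c : J → 𝔽)
    (x : Coprod G (FreeGroup J)) :
    chi c (Coprod.map f (MonoidHom.id _) x) = chi c x := by
  have : (chi c).comp (Coprod.map f (MonoidHom.id (FreeGroup J))) = chi (G := G) c := by
    apply Coprod.hom_ext
    · ext; simp [chi]
    · ext; simp [chi]
  exact DFunLike.congr_fun this x

lemma lift_map {G G' H : Type*} [Group G] [Group G'] [Group H] {J : Type*} (f : G →* G')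
    (φ : G' →* H) (x : FreeGroup J →* H) (z : Coprod G (FreeGroup J)) :
    Coprod.lift φ x (Coprod.map f (MonoidHom.id _) z) = Coprod.lift (φ.comp f) x z := by
  have : (Coprod.lift φ x).comp (Coprod.map f (MonoidHom.id (FreeGroup J))) =
      Coprod.lift (φ.comp f) x := by
    apply Coprod.hom_ext
    · ext; simp
    · ext; simp
  exact DFunLike.congr_fun this z

/-- The class is closed under passing to groups that embed (subgroups). -/
lemma HoweF.of_injective {G G' : Type u} [Group G] [Group G'] (f : G →* G')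
    (hf : Function.Injective f) (h : HoweF 𝔽 G') : HoweF 𝔽 G := by
  intro I J _ _ w hw
  obtain ⟨H, _, φ, x, hφ, hx⟩ := h I J (fun i => Coprod.map f (MonoidHom.id _) (w i)) (by
    intro b
    obtain ⟨c, hc⟩ := hw b
    exact ⟨c, fun i => by rw [chi_map]; exact hc i⟩)
  refine ⟨H, inferInstance, φ.comp f, x, hφ.comp hf, fun i => ?_⟩
  rw [← lift_map]; exact hx i

/-- Closed under arbitrary products. -/
lemma HoweF.pi {V : Type} (P : V → Type u) [∀ v, Group (P v)] (h : ∀ v, HoweF 𝔽 (P v)) :
    HoweF 𝔽 (∀ v, P v) := by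
  intro I J _ _ w hw
  have key : ∀ v : V, Solv (fun i => Coprod.map (Pi.evalMonoidHom P v)
      (MonoidHom.id (FreeGroup J)) (w i)) := by
    intro v
    apply h v I J
    intro b
    obtain ⟨c, hc⟩ := hw b
    exact ⟨c, fun i => by rw [chi_map]; exact hc i⟩
  choose H hH φ x hφ hx using key
  refine ⟨∀ v, H v, inferInstance, ?_, fun j v => x v j, ?_, ?_⟩
  · exact MonoidHom.mk' (fun p v => φ v (p v)) (by intro a b; funext v; simp)
  · intro a b hab
    funext v
    apply hφ v
    exact congrFun hab v
  · intro i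
    funext v
    have h1 := hx v i
    rw [lift_map] at h1
    rw [Pi.one_apply, ← h1]
    have : (Pi.evalMonoidHom H v).comp (Coprod.lift (MonoidHom.mk' (fun (p : ∀ v, P v) v =>
        φ v (p v)) (by intro a b; funext v; simp)) (FreeGroup.lift fun j v => x v j)) =
        Coprod.lift ((φ v).comp (Pi.evalMonoidHom P v)) (FreeGroup.lift (x v)) := by
      apply Coprod.hom_ext
      · ext p; simp
      · ext j; simp
    exact DFunLike.congr_fun this (w i)

end Transport

end Vale.Agent.H17.Howie
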