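import Vale.Agent.H17.HowieDefs

namespace Vale.Agent.H17.Howie

universe u

open Monoid

section Ext

variable {L V : Type*}

/-- A deterministic labelling extends to permutations. -/
lemma exists_perm [Finite V] {T : Set (FreeGroup L)} {cl : FreeGroup L → V} (h : Det T cl) :
    ∃ σ : L → Equiv.Perm V, ∀ u ∈ T, ∀ a, FreeGroup.of a * u ∈ T →
      σ a (cl u) = cl (FreeGroup.of a * u) := by
  classical
  have := Fintype.ofFinite V
  have key : ∀ a : L, ∃ e : Equiv.Perm V, ∀ u ∈ T, FreeGroup.of a * u ∈ T →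
      e (cl u) = cl (FreeGroup.of a * u) := by
    intro a
    let s : Set V := {v | ∃ u ∈ T, FreeGroup.of a * u ∈ T ∧ cl u = v}
    let f : V → V := fun v => if hv : v ∈ s then cl (FreeGroup.of a * hv.choose) else v
    have hf : ∀ u ∈ T, FreeGroup.of a * u ∈ T → f (cl u) = cl (FreeGroup.of a * u) := by
      intro u hu hau
      have hv : cl u ∈ s := ⟨u, hu, hau, rfl⟩
      simp only [f, dif_pos hv]
      obtain ⟨h1, h2, h3⟩ := hv.choose_spec
      exact (h _ h1 _ hu a h2 hau).1 h3
    have hinj : Set.InjOn f s := by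
      rintro _ ⟨u, hu, hau, rfl⟩ _ ⟨u', hu', hau', rfl⟩ heq
      rw [hf u hu hau, hf u' hu' hau'] at heq
      exact (h _ hu _ hu' a hau hau').2 heq
    obtain ⟨e, he⟩ := Set.MapsTo.exists_equiv_extend_of_card_eq (α := V)
      (t := (Finset.univ : Finset V)) (by simp) (s := s) (f := f)
      (fun x _ => by simp) hinj
    refine ⟨e.trans (Equiv.subtypeUnivEquiv (by simp)), ?_⟩
    intro u hu hau
    have h1 := he (cl u) ⟨u, hu, hau, rfl⟩
    simp only [Equiv.trans_apply, Equiv.subtypeUnivEquiv_apply]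
    rw [h1, hf u hu hau]
  choose σ hσ using key
  exact ⟨σ, fun u hu a hau => hσ a u hu hau⟩

end Ext

section Reach

variable {G : Type u} [Group G] {V : Type}

/-- labelled reachability along genuine edges -/
inductive Reach (GE : V → G → Prop) (ν : G → Equiv.Perm V) (v : V) : G → V → Prop
  | refl : Reach GE ν v 1 v
  | fwd (v' : V) (h a : G) : Reach GE ν v h v' → GE v' a → Reach GE ν v (a * h) (ν a v')
  | bwd (v' : V) (h a : G) : Reach GE ν v h (ν a v') → GE v' a → Reach GE ν v (a⁻¹ * h) v'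

variable {GE : V → G → Prop} {ν : G → Equiv.Perm V}

lemma Reach.trans {v v' v'' : V} {h h' : G} (p : Reach GE ν v h v') (q : Reach GE ν v' h' v'') :
    Reach GE ν v (h' * h) v'' := by
  induction q with
  | refl => rw [one_mul]; exact p
  | fwd v2 h1 a _ ha ih => rw [mul_assoc]; exact Reach.fwd _ _ _ ih ha
  | bwd v2 h1 a _ ha ih => rw [mul_assoc]; exact Reach.bwd _ _ _ ih ha

lemma Reach.symm {v v' : V} {h : G} (p : Reach GE ν v h v') : Reach GE ν v' h⁻¹ v := by
  induction p with
  | refl => rw [inv_one]; exact Reach.refl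
  | fwd v2 h1 a _ ha ih =>
    rw [mul_inv_rev]
    refine Reach.trans ?_ ih
    have := Reach.bwd (v := ν a v2) v2 1 a Reach.refl ha
    rwa [mul_one] at this
  | bwd v2 h1 a _ ha ih =>
    rw [mul_inv_rev, inv_inv]
    refine Reach.trans ?_ ih
    have := Reach.fwd (ν := ν) (v := v2) v2 1 a Reach.refl ha
    rwa [mul_one] at this

/-- the component relation -/
def reachSetoid (GE : V → G → Prop) (ν : G → Equiv.Perm V) : Setoid V where
  r v v' := ∃ h, Reach GE ν v h v'
  iseqv := ⟨fun v => ⟨1, Reach.refl⟩, fun ⟨h, p⟩ => ⟨h⁻¹, p.symm⟩,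
    fun ⟨h, p⟩ ⟨h', q⟩ => ⟨h' * h, p.trans q⟩⟩

lemma exists_base (GE : V → G → Prop) (ν : G → Equiv.Perm V) :
    ∃ (β : V → V) (τ : V → G), (∀ v, Reach GE ν (β v) (τ v) v) ∧
      (∀ v v' h, Reach GE ν v h v' → β v = β v') := by
  classical
  let S := reachSetoid GE ν
  let β : V → V := fun v => (Quotient.mk S v).out
  have h1 : ∀ v, ∃ h, Reach GE ν (β v) h v := fun v => Quotient.mk_out (s := S) v
  choose τ hτ using h1
  refine ⟨β, τ, hτ, ?_⟩
  intro v v' h hr
  have : (Quotient.mk S v) = Quotient.mk S v' := Quotient.sound (s := S) ⟨h, hr⟩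
  simp only [β, this]

end Reach

section Final

variable {G : Type u} [Group G] {I J : Type} {V : Type} {𝔽 : Type*} [Field 𝔽]

/-- words in the letters of `G` only -/
def gw (s : List (G × Bool)) : List ((G ⊕ J) × Bool) := s.map fun p => (Sum.inl p.1, p.2)

lemma mk_gw (s : List (G × Bool)) : FreeGroup.mk (gw (J := J) s) =
    FreeGroup.map Sum.inl (FreeGroup.mk s) := by
  rw [FreeGroup.map.mk]; rfl

lemma pot_cX_inl {M : Type*} [AddCommGroup M] (cl : FreeGroup (G ⊕ J) → V) (c : V → J → M)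
    (r : FreeGroup G) : ∀ u : FreeGroup (G ⊕ J),
    pot (cX cl c) (FreeGroup.map Sum.inl r * u) = pot (cX cl c) u := by
  induction r using FreeGroup.induction_on with
  | C1 => intro u; simp
  | of a => intro u; rw [FreeGroup.map.of, pot_of_mul]; simp [cX]
  | inv_of a _ =>
    intro u
    rw [map_inv, FreeGroup.map.of, pot_inv_of_mul]; simp [cX]
  | mul x y hx hy => intro u; rw [map_mul, mul_assoc, hx, hy]

lemma act_inl {K K' : Type*} [Group K] [Group K'] (σ : (G ⊕ J) → Equiv.Perm V)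
    (val : V → (G ⊕ J) → K) (val' : V → (G ⊕ J) → K') (φ : K →* K')
    (h : ∀ v a, val' v (Sum.inl a) = φ (val v (Sum.inl a))) (r : FreeGroup G) :
    ∀ (v : V) (k : K), act σ val' (FreeGroup.map Sum.inl r) (v, φ k) =
      ((act σ val (FreeGroup.map Sum.inl r) (v, k)).1,
        φ (act σ val (FreeGroup.map Sum.inl r) (v, k)).2) := by
  induction r using FreeGroup.induction_on with
  | C1 => intro v k; simp
  | of a => intro v k; rw [FreeGroup.map.of, act_of, act_of]; simp [h]
  | inv_of a _ =>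
    intro v k
    rw [_root_.map_inv (FreeGroup.map _), FreeGroup.map.of, act_inv_of, act_inv_of]; simp [h]
  | mul x y hx hy =>
    intro v k
    simp only [_root_.map_mul, Equiv.Perm.mul_apply]
    rw [hy, hx]

/-- `x` placed in the coordinate `b` of the product of the subgroups `P c` -/
noncomputable def sg (P : V → Subgroup G) (b : V) (x : G) : ∀ c, P c := by
  classical exact Pi.mulSingle b (if h : x ∈ P b then ⟨x, h⟩ else 1)

lemma sg_one (P : V → Subgroup G) (b : V) : sg P b 1 = 1 := by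
  classical
  unfold sg
  rw [dif_pos (one_mem _)]
  exact Pi.mulSingle_one b

lemma sg_mul (P : V → Subgroup G) (b : V) {x y : G} (hx : x ∈ P b) (hy : y ∈ P b) :
    sg P b (x * y) = sg P b x * sg P b y := by
  classical
  unfold sg
  rw [dif_pos (mul_mem hx hy), dif_pos hx, dif_pos hy, ← Pi.mulSingle_mul]
  rfl

lemma sg_inv (P : V → Subgroup G) (b : V) {x : G} (hx : x ∈ P b) :
    sg P b x⁻¹ = (sg P b x)⁻¹ := by
  classical
  unfold sg
  rw [dif_pos (inv_mem hx), dif_pos hx, ← Pi.mulSingle_inv]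
  rfl

lemma sg_eq_one (P : V → Subgroup G) (b : V) {x : G} (hx : x ∈ P b) (h : sg P b x = 1) :
    x = 1 := by
  classical
  have h1 := congrFun h b
  unfold sg at h1
  rw [dif_pos hx, Pi.mulSingle_eq_same] at h1
  exact congrArg Subtype.val h1

lemma sg_apply_same (P : V → Subgroup G) (b : V) {x : G} (hx : x ∈ P b) :
    sg P b x b = ⟨x, hx⟩ := by
  classical
  unfold sg
  rw [dif_pos hx, Pi.mulSingle_eq_same]

/-- coefficient labelling -/
noncomputable def kapf (P : V → Subgroup G) (β : V → V) (τ : V → G) (ν : G → Equiv.Perm V) :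
    V → (G ⊕ J) → (∀ c, P c) :=
  fun v => Sum.elim (fun a => sg P (β v) ((τ (ν a v))⁻¹ * a * τ v)) (fun _ => 1)

/-- telescoping along a path of coefficient letters -/
lemma telescope {T : Set (FreeGroup (G ⊕ J))} {cl : FreeGroup (G ⊕ J) → V}
    {σ : (G ⊕ J) → Equiv.Perm V}
    (hσ : ∀ u ∈ T, ∀ a, FreeGroup.of a * u ∈ T → σ a (cl u) = cl (FreeGroup.of a * u))
    (P : V → Subgroup G) (β : V → V) (τ : V → G)
    (hβ1 : ∀ u ∈ T, ∀ a, FreeGroup.of (Sum.inl a) * u ∈ T →
      β (σ (Sum.inl a) (cl u)) = β (cl u))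
    (hmem : ∀ u ∈ T, ∀ a, FreeGroup.of (Sum.inl a) * u ∈ T →
      (τ (σ (Sum.inl a) (cl u)))⁻¹ * a * τ (cl u) ∈ P (β (cl u)))
    (s : List (G × Bool)) (u : FreeGroup (G ⊕ J)) (hs : PathIn T (gw s) u) :
    β (cl (FreeGroup.mk (gw s) * u)) = β (cl u) ∧
      ((τ (cl (FreeGroup.mk (gw s) * u)))⁻¹ * FreeGroup.lift id (FreeGroup.mk s) *
          τ (cl u) ∈ P (β (cl u))) ∧
        (act σ (kapf P β τ (fun a => σ (Sum.inl a))) (FreeGroup.mk (gw s)) (cl u, 1)).2 =
          sg P (β (cl u)) ((τ (cl (FreeGroup.mk (gw s) * u)))⁻¹ *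
            FreeGroup.lift id (FreeGroup.mk s) * τ (cl u)) := by
  induction s with
  | nil =>
    have e1 : FreeGroup.mk (gw (J := J) ([] : List (G × Bool))) = 1 := rfl
    have e2 : (FreeGroup.mk ([] : List (G × Bool))) = 1 := rfl
    rw [e1, e2, one_mul, map_one, mul_one, inv_mul_cancel, map_one, Equiv.Perm.one_apply, sg_one]
    exact ⟨rfl, one_mem _, rfl⟩
  | cons p s ih =>
    obtain ⟨a, b⟩ := p
    have hp' : PathIn T (gw s) u := hs.tail
    obtain ⟨hb, hm, hv⟩ := ih hp'
    have hfst : (act σ (kapf P β τ (fun a => σ (Sum.inl a))) (FreeGroup.mk (gw s)) (cl u, 1)).1 =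
        cl (FreeGroup.mk (gw s) * u) := by
      rw [act_path hσ _ (gw s) u hp']
    cases b with
    | true =>
      have e1 : FreeGroup.mk (gw (J := J) ((a, true) :: s)) =
          FreeGroup.of (Sum.inl a) * FreeGroup.mk (gw s) := mk_cons_true _ _
      have e2 : FreeGroup.mk ((a, true) :: s) = FreeGroup.of a * FreeGroup.mk s :=
        mk_cons_true _ _
      have hin : FreeGroup.of (Sum.inl a) * (FreeGroup.mk (gw s) * u) ∈ T := by
        have := hs.self
        rw [e1, mul_assoc] at this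
        exact this
      have hnext := hσ _ hp'.self _ hin
      have hm0 := hmem _ hp'.self a hin
      have hb1 := hβ1 _ hp'.self a hin
      rw [hb] at hm0 hb1
      have hprod : (τ (cl (FreeGroup.of (Sum.inl a) * (FreeGroup.mk (gw s) * u))))⁻¹ *
          FreeGroup.lift id (FreeGroup.of a * FreeGroup.mk s) * τ (cl u) =
          ((τ (σ (Sum.inl a) (cl (FreeGroup.mk (gw s) * u))))⁻¹ * a *
            τ (cl (FreeGroup.mk (gw s) * u))) *
            ((τ (cl (FreeGroup.mk (gw s) * u)))⁻¹ * FreeGroup.lift id (FreeGroup.mk s) *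
              τ (cl u)) := by
        rw [hnext, _root_.map_mul, FreeGroup.lift_apply_of]
        simp [mul_assoc]
      rw [e1, e2, mul_assoc (FreeGroup.of (Sum.inl a)), hprod]
      refine ⟨by rw [← hnext]; exact hb1, mul_mem hm0 hm, ?_⟩
      rw [_root_.map_mul, Equiv.Perm.mul_apply, act_of, hfst, hv, sg_mul P _ hm0 hm]
      simp only [kapf, Sum.elim_inl, hb]
    | false =>
      have e1 : FreeGroup.mk (gw (J := J) ((a, false) :: s)) =
          (FreeGroup.of (Sum.inl a))⁻¹ * FreeGroup.mk (gw s) := mk_cons_false _ _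
      have e2 : FreeGroup.mk ((a, false) :: s) = (FreeGroup.of a)⁻¹ * FreeGroup.mk s :=
        mk_cons_false _ _
      have hin : (FreeGroup.of (Sum.inl a))⁻¹ * (FreeGroup.mk (gw s) * u) ∈ T := by
        have := hs.self
        rw [e1, mul_assoc] at this
        exact this
      have hin2 : FreeGroup.of (Sum.inl a) * ((FreeGroup.of (Sum.inl a))⁻¹ *
          (FreeGroup.mk (gw s) * u)) ∈ T := by rw [mul_inv_cancel_left]; exact hp'.self
      have hnext := hσ _ hin _ hin2
      have hm0 := hmem _ hin a hin2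
      have hb1 := hβ1 _ hin a hin2
      rw [mul_inv_cancel_left] at hnext
      rw [hnext, hb] at hb1
      rw [← hb1] at hm0
      have hnext' : (σ (Sum.inl a)).symm (cl (FreeGroup.mk (gw s) * u)) =
          cl ((FreeGroup.of (Sum.inl a))⁻¹ * (FreeGroup.mk (gw s) * u)) := by
        rw [← hnext]; simp
      have hprod : (τ (cl ((FreeGroup.of (Sum.inl a))⁻¹ * (FreeGroup.mk (gw s) * u))))⁻¹ *
          FreeGroup.lift id ((FreeGroup.of a)⁻¹ * FreeGroup.mk s) * τ (cl u) =
          ((τ (σ (Sum.inl a) (cl ((FreeGroup.of (Sum.inl a))⁻¹ *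
            (FreeGroup.mk (gw s) * u)))))⁻¹ * a *
            τ (cl ((FreeGroup.of (Sum.inl a))⁻¹ * (FreeGroup.mk (gw s) * u))))⁻¹ *
            ((τ (cl (FreeGroup.mk (gw s) * u)))⁻¹ * FreeGroup.lift id (FreeGroup.mk s) *
              τ (cl u)) := by
        rw [hnext, _root_.map_mul, _root_.map_inv, FreeGroup.lift_apply_of]
        simp [mul_assoc]
      rw [e1, e2, mul_assoc (FreeGroup.of (Sum.inl a))⁻¹, hprod]
      refine ⟨hb1.symm, mul_mem (inv_mem hm0) hm, ?_⟩
      rw [_root_.map_mul, Equiv.Perm.mul_apply, act_inv_of, hfst, hv,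
        sg_mul P _ (inv_mem hm0) hm, sg_inv P _ hm0]
      simp only [kapf, Sum.elim_inl, hnext', hb1]

end Final

end Vale.Agent.H17.Howie
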