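import Vale.Agent.H17.HowieStage

namespace Vale.Agent.H17.Howie

universe u

open Monoid

section Main

variable {G : Type u} [Group G] {I J : Type} {𝔽 : Type} [Field 𝔽]

/-- the projection to the free product -/
def proj (G : Type u) [Group G] (J : Type) : FreeGroup (G ⊕ J) →* Coprod G (FreeGroup J) :=
  FreeGroup.lift (Sum.elim (fun a => Coprod.inl a) (fun j => Coprod.inr (FreeGroup.of j)))

lemma proj_inl (a : G) : proj G J (FreeGroup.of (Sum.inl a)) = Coprod.inl a := by
  simp [proj]

lemma proj_inr (j : J) : proj G J (FreeGroup.of (Sum.inr j)) = Coprod.inr (FreeGroup.of j) := by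
  simp [proj]

lemma proj_surjective : Function.Surjective (proj G J) := by
  intro x
  induction x using Coprod.induction_on with
  | inl a => exact ⟨_, proj_inl a⟩
  | inr y =>
    refine ⟨FreeGroup.map Sum.inr y, ?_⟩
    induction y using FreeGroup.induction_on with
    | C1 => simp
    | of j => rw [FreeGroup.map.of, proj_inr]
    | inv_of j h => rw [_root_.map_inv, _root_.map_inv, h, _root_.map_inv]
    | mul a b ha hb => rw [_root_.map_mul, _root_.map_mul, ha, hb, _root_.map_mul]
  | mul a b ha hb =>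
    obtain ⟨x, hx⟩ := ha
    obtain ⟨y, hy⟩ := hb
    exact ⟨x * y, by rw [_root_.map_mul, hx, hy]⟩

/-- relators of `G` together with lifts of the equations -/
def rels (w : I → FreeGroup (G ⊕ J)) : Set (FreeGroup (G ⊕ J)) :=
  {x | ∃ r : FreeGroup G, FreeGroup.lift id r = 1 ∧ x = FreeGroup.map Sum.inl r} ∪ Set.range w

lemma lift_rel {w0 : I → Coprod G (FreeGroup J)} {w : I → FreeGroup (G ⊕ J)}
    (hw : ∀ i, proj G J (w i) = w0 i) {g : G}
    (hg : Coprod.inl g ∈ Subgroup.normalClosure (Set.range w0)) :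
    FreeGroup.of (Sum.inl g) ∈ Subgroup.normalClosure (rels w) := by
  let N := Subgroup.normalClosure (rels w)
  let q : FreeGroup (G ⊕ J) →* FreeGroup (G ⊕ J) ⧸ N := QuotientGroup.mk' N
  have hq : ∀ r : FreeGroup G, q (FreeGroup.map Sum.inl r) = q (FreeGroup.of (Sum.inl
      (FreeGroup.lift id r))) := by
    intro r
    rw [← mul_inv_eq_one, ← _root_.map_inv, ← _root_.map_mul]
    apply (QuotientGroup.eq_one_iff _).2
    apply Subgroup.subset_normalClosure
    left
    refine ⟨r * (FreeGroup.of (FreeGroup.lift id r))⁻¹, ?_, ?_⟩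
    · rw [_root_.map_mul, _root_.map_inv, FreeGroup.lift_apply_of]; simp
    · rw [_root_.map_mul, _root_.map_inv, FreeGroup.map.of]
  let f : G →* FreeGroup (G ⊕ J) ⧸ N :=
    { toFun := fun a => q (FreeGroup.of (Sum.inl a))
      map_one' := by
        have := hq 1
        rw [_root_.map_one, _root_.map_one, _root_.map_one] at this
        exact this.symm
      map_mul' := by
        intro a b
        have := hq (FreeGroup.of a * FreeGroup.of b)
        rw [_root_.map_mul, _root_.map_mul, _root_.map_mul, FreeGroup.lift_apply_of,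
          FreeGroup.lift_apply_of, FreeGroup.map.of, FreeGroup.map.of] at this
        exact this.symm }
  let Ψ : Coprod G (FreeGroup J) →* FreeGroup (G ⊕ J) ⧸ N :=
    Coprod.lift f (FreeGroup.lift fun j => q (FreeGroup.of (Sum.inr j)))
  have hΨ : Ψ.comp (proj G J) = q := by
    apply FreeGroup.ext_hom
    intro a
    rcases a with a | j
    · rw [MonoidHom.comp_apply, proj_inl]; simp only [Ψ, Coprod.lift_apply_inl]; rfl
    · rw [MonoidHom.comp_apply, proj_inr]
      simp only [Ψ, Coprod.lift_apply_inr, FreeGroup.lift_apply_of]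
  have hker : Subgroup.normalClosure (Set.range w0) ≤ Ψ.ker := by
    apply Subgroup.normalClosure_le_normal
    rintro _ ⟨i, rfl⟩
    rw [SetLike.mem_coe, MonoidHom.mem_ker, ← hw i, ← MonoidHom.comp_apply, hΨ]
    apply (QuotientGroup.eq_one_iff _).2
    apply Subgroup.subset_normalClosure
    right
    exact ⟨i, rfl⟩
  have h1 := hker hg
  rw [MonoidHom.mem_ker, ← proj_inl (J := J), ← MonoidHom.comp_apply, hΨ] at h1
  exact (QuotientGroup.eq_one_iff _).1 h1

/-- the finite path -/
def pathSet (s : List ((G ⊕ J) × Bool)) (u : FreeGroup (G ⊕ J)) : Set (FreeGroup (G ⊕ J)) :=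
  (fun t => FreeGroup.mk t * u) '' {t | t ∈ s.tails}

omit [Group G] in
lemma pathSet_finite (s : List ((G ⊕ J) × Bool)) (u : FreeGroup (G ⊕ J)) :
    (pathSet s u).Finite := (List.finite_toSet s.tails).image _

omit [Group G] in
lemma pathIn_of_subset {T : Set (FreeGroup (G ⊕ J))} {s : List ((G ⊕ J) × Bool)}
    {u : FreeGroup (G ⊕ J)} (h : pathSet s u ⊆ T) : PathIn T s u := by
  intro t ht
  exact h ⟨t, (List.mem_tails t s).2 ht, rfl⟩

lemma exists_finite {w : I → FreeGroup (G ⊕ J)} {x : FreeGroup (G ⊕ J)}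
    (hx : x ∈ Subgroup.normalClosure (rels w)) :
    ∃ (BG : Set (FreeGroup G × FreeGroup (G ⊕ J))) (Bw : Set (I × FreeGroup (G ⊕ J))),
      BG.Finite ∧ Bw.Finite ∧ (∀ r u, (r, u) ∈ BG → FreeGroup.lift id r = 1) ∧
      x ∈ Subgroup.closure
      ({x | ∃ r u, (r, u) ∈ BG ∧ x = u⁻¹ * FreeGroup.map Sum.inl r * u} ∪
        {x | ∃ i u, (i, u) ∈ Bw ∧ x = u⁻¹ * w i * u}) := by
  unfold Subgroup.normalClosure at hx
  induction hx using Subgroup.closure_induction with
  | mem x hx =>
    obtain ⟨a, ha, hax⟩ := Group.mem_conjugatesOfSet_iff.1 hx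
    obtain ⟨c, hc⟩ := isConj_iff.1 hax
    rcases ha with ⟨r, hr, rfl⟩ | ⟨i, rfl⟩
    · refine ⟨{(r, c⁻¹)}, ∅, Set.finite_singleton _, Set.finite_empty, ?_, ?_⟩
      · intro r' u' h
        rw [Set.mem_singleton_iff, Prod.mk.injEq] at h
        rw [h.1]; exact hr
      · apply Subgroup.subset_closure
        left
        exact ⟨r, c⁻¹, rfl, by rw [inv_inv]; exact hc.symm⟩
    · refine ⟨∅, {(i, c⁻¹)}, Set.finite_empty, Set.finite_singleton _, ?_, ?_⟩
      · intro r' u' h; exact absurd h (Set.notMem_empty _)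
      · apply Subgroup.subset_closure
        right
        exact ⟨i, c⁻¹, rfl, by rw [inv_inv]; exact hc.symm⟩
  | one =>
    exact ⟨∅, ∅, Set.finite_empty, Set.finite_empty, fun r' u' h => absurd h (Set.notMem_empty _),
      Subgroup.one_mem _⟩
  | mul x y _ _ hx hy =>
    obtain ⟨BG, Bw, f1, f2, h1, h2⟩ := hx
    obtain ⟨BG', Bw', f1', f2', h1', h2'⟩ := hy
    refine ⟨BG ∪ BG', Bw ∪ Bw', f1.union f1', f2.union f2', ?_, ?_⟩
    · rintro r u (h | h)
      · exact h1 r u h
      · exact h1' r u h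
    · apply Subgroup.mul_mem
      · refine Subgroup.closure_mono ?_ h2
        rintro z (⟨r, u, h, rfl⟩ | ⟨i, u, h, rfl⟩)
        · left; exact ⟨r, u, Or.inl h, rfl⟩
        · right; exact ⟨i, u, Or.inl h, rfl⟩
      · refine Subgroup.closure_mono ?_ h2'
        rintro z (⟨r, u, h, rfl⟩ | ⟨i, u, h, rfl⟩)
        · left; exact ⟨r, u, Or.inr h, rfl⟩
        · right; exact ⟨i, u, Or.inr h, rfl⟩
  | inv x _ hx =>
    obtain ⟨BG, Bw, f1, f2, h1, h2⟩ := hx
    exact ⟨BG, Bw, f1, f2, h1, Subgroup.inv_mem _ h2⟩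

lemma exists_deriv {w0 : I → Coprod G (FreeGroup J)} {w : I → FreeGroup (G ⊕ J)}
    (hw : ∀ i, proj G J (w i) = w0 i) {g : G}
    (hg : Coprod.inl g ∈ Subgroup.normalClosure (Set.range w0)) :
    ∃ D : Deriv G I J, D.g = g ∧ D.w = w := by
  obtain ⟨BG, Bw, f1, f2, h1, h2⟩ := exists_finite (lift_rel hw hg)
  let T : Set (FreeGroup (G ⊕ J)) := {1, FreeGroup.of (Sum.inl g)} ∪
    ((⋃ p ∈ BG, (pathSet (gw (wd p.1)) p.2 ∪ pathSet (wd p.2) 1)) ∪
      (⋃ p ∈ Bw, (pathSet (wd (w p.1)) p.2 ∪ pathSet (wd p.2) 1)))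
  refine ⟨Deriv.mk T ?_ ?_ g ?_ w BG Bw h1 ?_ ?_ ?_ ?_ h2, rfl, rfl⟩
  · refine (Set.toFinite _).union ((f1.biUnion ?_).union (f2.biUnion ?_))
    · intro p _; exact (pathSet_finite _ _).union (pathSet_finite _ _)
    · intro p _; exact (pathSet_finite _ _).union (pathSet_finite _ _)
  · left; simp
  · left; simp
  · intro r u hru
    apply pathIn_of_subset
    intro x hx
    right; left
    exact Set.mem_biUnion hru (Or.inl hx)
  · intro r u hru
    apply pathIn_of_subset
    intro x hx
    right; left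
    exact Set.mem_biUnion hru (Or.inr hx)
  · intro i u hiu
    apply pathIn_of_subset
    intro x hx
    right; right
    exact Set.mem_biUnion hiu (Or.inl hx)
  · intro i u hiu
    apply pathIn_of_subset
    intro x hx
    right; right
    exact Set.mem_biUnion hiu (Or.inr hx)

/-- restriction to the image and application of the last stage -/
lemma stage_of_M [Finite I] [Finite J] (D : Deriv G I J) {V : Type}
    (cl : FreeGroup (G ⊕ J) → V) (hdet : Det D.T cl) (hcl : D.Closed cl)
    (hstar : Star 𝔽 D.Bw D.w cl)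
    (hM : ∀ k : FreeGroup (G ⊕ J) → 𝔽, Cmp D.T cl k → D.Closed k →
      ∀ u ∈ D.T, ∀ u' ∈ D.T, cl u = cl u' → k u = k u')
    (hP : ∀ P : Subgroup G, P.FG → (∀ θ : P →* Multiplicative 𝔽, θ = 1) → HoweF 𝔽 P) :
    D.g = 1 := by
  classical
  let V' : Type := (cl '' D.T : Set V)
  have hfin : Finite V' := (D.fin.image cl).to_subtype
  let cl' : FreeGroup (G ⊕ J) → V' := fun u =>
    if hu : u ∈ D.T then ⟨cl u, u, hu, rfl⟩ else ⟨cl 1, 1, D.one_mem, rfl⟩
  have hc : ∀ u ∈ D.T, ((cl' u : V') : V) = cl u := by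
    intro u hu
    simp only [cl', dif_pos hu]
  have hiff : ∀ u ∈ D.T, ∀ u' ∈ D.T, (cl' u = cl' u' ↔ cl u = cl u') := by
    intro u hu u' hu'
    rw [← hc u hu, ← hc u' hu']
    exact Subtype.ext_iff
  refine final_stage (𝔽 := 𝔽) D cl' ?_ ?_ ?_ ?_ ?_ hP
  · intro u hu u' hu' a ha ha'
    rw [hiff u hu u' hu', hiff _ ha _ ha']
    exact hdet u hu u' hu' a ha ha'
  · constructor
    · intro r u hru
      have p := D.BG2 r u hru
      have q := p.self
      rw [mk_gw, mk_wd] at q
      exact (hiff _ q _ p.start).2 (hcl.1 r u hru)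
    · intro i u hiu
      have p := D.Bw2 i u hiu
      have q := p.self
      rw [mk_wd] at q
      exact (hiff _ q _ p.start).2 (hcl.2 i u hiu)
  · rintro ⟨v, u, hu, rfl⟩
    refine ⟨u, hu, ?_⟩
    apply Subtype.ext
    rw [hc u hu]
  · intro b
    obtain ⟨c, hcc⟩ := hstar (fun i v => if h : v ∈ cl '' D.T then b i ⟨v, h⟩ else 0)
    refine ⟨fun v j => c v.1 j, ?_⟩
    intro i u hiu
    have p := D.Bw2 i u hiu
    have h1 := pot_compare (AddMonoidHom.id 𝔽) (cX cl c) (cX cl' fun v j => c v.1 j)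
      (wd (D.w i)) u u (by
        intro t ht a
        have hT : FreeGroup.mk t * u ∈ D.T := p t ht
        rcases a with a | a
        · simp [cX]
        · simp only [cX, Sum.elim_inr, AddMonoidHom.id_apply]
          rw [hc _ hT])
    rw [mk_wd, AddMonoidHom.id_apply, hcc i u hiu] at h1
    have hu : u ∈ D.T := p.start
    rw [dif_pos ⟨u, hu, rfl⟩] at h1
    rw [h1]
    simp only [cl', dif_pos hu]
  · intro k hk hkcl u hu u' hu' huu
    refine hM k ?_ hkcl u hu u' hu' ((hiff u hu u' hu').1 huu)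
    intro x hx x' hx' a ha ha' hxx
    exact hk x hx x' hx' a ha ha' ((hiff x hx x' hx').2 hxx)

theorem main_induction [Finite I] [Finite J] (D : Deriv G I J)
    (hP : ∀ P : Subgroup G, P.FG → (∀ θ : P →* Multiplicative 𝔽, θ = 1) → HoweF 𝔽 P) (N : ℕ) :
    ∀ (V : Type) (cl : FreeGroup (G ⊕ J) → V), Det D.T cl → D.Closed cl →
      Star 𝔽 D.Bw D.w cl → D.T.ncard ≤ (cl '' D.T).ncard + N → D.g = 1 := by
  induction N with
  | zero =>
    intro V cl hdet hcl hstar hcard
    refine stage_of_M D cl hdet hcl hstar ?_ hP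
    intro k _ _ u hu u' hu' huu
    have h1 : (cl '' D.T).ncard = D.T.ncard := le_antisymm (Set.ncard_image_le D.fin) (by omega)
    have h2 := (Set.ncard_image_iff D.fin).1 h1
    rw [h2 hu hu' huu]
  | succ N ih =>
    intro V cl hdet hcl hstar hcard
    by_cases hM : ∀ k : FreeGroup (G ⊕ J) → 𝔽, Cmp D.T cl k → D.Closed k →
      ∀ u ∈ D.T, ∀ u' ∈ D.T, cl u = cl u' → k u = k u'
    · exact stage_of_M D cl hdet hcl hstar hM hP
    · push Not at hM
      obtain ⟨k, hk, hkcl, u0, hu0, u0', hu0', h0, hne⟩ := hM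
      refine ih (V × 𝔽) (fun u => (cl u, k u)) ?_ ?_ ?_ ?_
      · intro u hu u' hu' a ha ha'
        simp only [Prod.mk.injEq]
        constructor
        · rintro ⟨e1, e2⟩
          have := hk u hu u' hu' a ha ha' e1
          exact ⟨(hdet u hu u' hu' a ha ha').1 e1, by linear_combination this + e2⟩
        · rintro ⟨e1, e2⟩
          have e3 := (hdet u hu u' hu' a ha ha').2 e1
          have := hk u hu u' hu' a ha ha' e3
          exact ⟨e3, by linear_combination e2 - this⟩
      · constructor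
        · intro r u hru
          simp only [Prod.mk.injEq]
          exact ⟨hcl.1 r u hru, hkcl.1 r u hru⟩
        · intro i u hiu
          simp only [Prod.mk.injEq]
          exact ⟨hcl.2 i u hiu, hkcl.2 i u hiu⟩
      · exact Star.refine D.fin hdet hk D.Bw2 hstar
      · have himg : cl '' D.T = Prod.fst '' ((fun u => (cl u, k u)) '' D.T) := by
          rw [Set.image_image]
        have hfin : ((fun u => (cl u, k u)) '' D.T).Finite := D.fin.image _
        have hle : (cl '' D.T).ncard ≤ ((fun u => (cl u, k u)) '' D.T).ncard := by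
          rw [himg]; exact Set.ncard_image_le hfin
        have hne' : (cl '' D.T).ncard ≠ ((fun u => (cl u, k u)) '' D.T).ncard := by
          intro heq
          rw [himg] at heq
          have hinj := (Set.ncard_image_iff hfin).1 heq
          have := hinj ⟨u0, hu0, rfl⟩ ⟨u0', hu0', rfl⟩ h0
          exact hne (congrArg Prod.snd this)
        omega

/-- the value of the additive potential for the one-vertex labelling -/
lemma pot_unit (c : J → 𝔽) (u : FreeGroup (G ⊕ J)) :
    pot (cX (fun _ => ()) (fun _ j => c j)) u = Multiplicative.toAdd (chi c (proj G J u)) := by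
  symm
  apply pot_unique _ (fun u => Multiplicative.toAdd (chi c (proj G J u)))
  · simp
  · intro a u
    rcases a with a | j
    · simp [proj_inl, chi, cX]
    · simp [proj_inr, chi, cX]

/-- **Main theorem** (over an arbitrary field). -/
theorem howeF_of_subgroups
    (hP : ∀ P : Subgroup G, P.FG → (∀ θ : P →* Multiplicative 𝔽, θ = 1) → HoweF 𝔽 P) :
    HoweF 𝔽 G := by
  intro I J _ _ w0 hNS
  choose w hw using fun i => proj_surjective (w0 i)
  have key : ∀ g : G, Coprod.inl g ∈ Subgroup.normalClosure (Set.range w0) → g = 1 := by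
    intro g hg
    obtain ⟨D, rfl, hDw⟩ := exists_deriv hw hg
    refine main_induction (𝔽 := 𝔽) D hP D.T.ncard Unit (fun _ => ()) ?_ ?_ ?_ (by omega)
    · intro _ _ _ _ _ _ _; simp
    · exact ⟨fun _ _ _ => rfl, fun _ _ _ => rfl⟩
    · intro b
      obtain ⟨c, hc⟩ := hNS (fun i => b i ())
      refine ⟨fun _ j => c j, ?_⟩
      intro i u _
      rw [pot_unit, pot_unit, _root_.map_mul, _root_.map_mul, toAdd_mul, hDw, hw i, hc i]
      simp
  let N := Subgroup.normalClosure (Set.range w0)
  let q : Coprod G (FreeGroup J) →* Coprod G (FreeGroup J) ⧸ N := QuotientGroup.mk' N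
  refine ⟨Coprod G (FreeGroup J) ⧸ N, inferInstance, q.comp Coprod.inl,
    fun j => q (Coprod.inr (FreeGroup.of j)), ?_, ?_⟩
  · rw [injective_iff_map_eq_one]
    intro g hg
    exact key g ((QuotientGroup.eq_one_iff _).1 hg)
  · intro i
    have : Coprod.lift (q.comp Coprod.inl) (FreeGroup.lift fun j =>
        q (Coprod.inr (FreeGroup.of j))) = q := by
      apply Coprod.hom_ext
      · rfl
      · ext j; simp
    rw [this]
    apply (QuotientGroup.eq_one_iff _).2
    exact Subgroup.subset_normalClosure ⟨i, rfl⟩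

end Main

end Vale.Agent.H17.Howie
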