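import Mathlib

namespace Vale.Agent.H17.Howie



section Pot

variable {L K : Type*} [Group K]

/-- One step in the Cayley tree of the free group, with values in `K`. -/
def stepEquiv (val : FreeGroup L → L → K) (a : L) : Equiv.Perm (FreeGroup L × K) where
  toFun p := (FreeGroup.of a * p.1, val p.1 a * p.2)
  invFun p := ((FreeGroup.of a)⁻¹ * p.1, (val ((FreeGroup.of a)⁻¹ * p.1) a)⁻¹ * p.2)
  left_inv p := by ext <;> simp
  right_inv p := by ext <;> simp

lemma lift_step_fst (val : FreeGroup L → L → K) (u : FreeGroup L) :
    ∀ p : FreeGroup L × K, (FreeGroup.lift (stepEquiv val) u p).1 = u * p.1 := by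
  induction u using FreeGroup.induction_on with
  | C1 => intro p; simp
  | of a => intro p; simp [stepEquiv]
  | inv_of a _ =>
    intro p
    simp only [map_inv, FreeGroup.lift_apply_of]
    rfl
  | mul x y hx hy =>
    intro p
    simp only [map_mul, Equiv.Perm.mul_apply]
    rw [hx, hy, mul_assoc]

/-- The `K`-valued potential on the free group with the given edge values. -/
def npot (val : FreeGroup L → L → K) (u : FreeGroup L) : K :=
  (FreeGroup.lift (stepEquiv val) u (1, 1)).2

lemma npot_one (val : FreeGroup L → L → K) : npot val 1 = 1 := by simp [npot]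

lemma npot_of_mul (val : FreeGroup L → L → K) (a : L) (u : FreeGroup L) :
    npot val (FreeGroup.of a * u) = val u a * npot val u := by
  have h := lift_step_fst val u (1, 1)
  simp only [npot, map_mul, Equiv.Perm.mul_apply, FreeGroup.lift_apply_of]
  change val (FreeGroup.lift (stepEquiv val) u (1, 1)).1 a * _ = _
  rw [h]; simp

lemma npot_inv_of_mul (val : FreeGroup L → L → K) (a : L) (u : FreeGroup L) :
    npot val ((FreeGroup.of a)⁻¹ * u) = (val ((FreeGroup.of a)⁻¹ * u) a)⁻¹ * npot val u := by
  have h := npot_of_mul val a ((FreeGroup.of a)⁻¹ * u)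
  rw [mul_inv_cancel_left] at h
  rw [h]; simp

end Pot

section Act

variable {L V K : Type*} [Group K]

/-- The action of the free group on `V × K` attached to permutations and edge values. -/
def actStep (σ : L → Equiv.Perm V) (val : V → L → K) (a : L) : Equiv.Perm (V × K) where
  toFun p := (σ a p.1, val p.1 a * p.2)
  invFun p := ((σ a).symm p.1, (val ((σ a).symm p.1) a)⁻¹ * p.2)
  left_inv p := by ext <;> simp
  right_inv p := by ext <;> simp

def act (σ : L → Equiv.Perm V) (val : V → L → K) : FreeGroup L →* Equiv.Perm (V × K) :=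
  FreeGroup.lift (actStep σ val)

lemma act_of (σ : L → Equiv.Perm V) (val : V → L → K) (a : L) (p : V × K) :
    act σ val (FreeGroup.of a) p = (σ a p.1, val p.1 a * p.2) := by
  simp [act, actStep]

lemma act_inv_of (σ : L → Equiv.Perm V) (val : V → L → K) (a : L) (p : V × K) :
    act σ val (FreeGroup.of a)⁻¹ p = ((σ a).symm p.1, (val ((σ a).symm p.1) a)⁻¹ * p.2) := by
  simp only [act, map_inv, FreeGroup.lift_apply_of]
  rfl

/-- the value of a word at a vertex -/
def sval (σ : L → Equiv.Perm V) (val : V → L → K) (w : FreeGroup L) (v : V) : K :=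
  (act σ val w (v, 1)).2

lemma act_mul_right (σ : L → Equiv.Perm V) (val : V → L → K) (w : FreeGroup L) :
    ∀ (v : V) (k k' : K), act σ val w (v, k * k') =
      ((act σ val w (v, k)).1, (act σ val w (v, k)).2 * k') := by
  induction w using FreeGroup.induction_on with
  | C1 => intro v k k'; simp
  | of a => intro v k k'; simp [act_of, mul_assoc]
  | inv_of a _ => intro v k k'; simp only [act_inv_of, mul_assoc]
  | mul x y hx hy =>
    intro v k k'
    simp only [map_mul, Equiv.Perm.mul_apply]
    rw [hy]
    have := hx (act σ val y (v, k)).1 (act σ val y (v, k)).2 k'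
    rw [this]

lemma act_apply (σ : L → Equiv.Perm V) (val : V → L → K) (w : FreeGroup L) (v : V) (k : K) :
    act σ val w (v, k) = ((act σ val w (v, 1)).1, sval σ val w v * k) := by
  have := act_mul_right σ val w v 1 k
  rw [one_mul] at this
  exact this

/-- Naturality of values. -/
lemma act_map {K' : Type*} [Group K'] (σ : L → Equiv.Perm V) (val : V → L → K) (f : K →* K')
    (w : FreeGroup L) : ∀ (v : V) (k : K), act σ (fun v a => f (val v a)) w (v, f k) =
      ((act σ val w (v, k)).1, f (act σ val w (v, k)).2) := by
  induction w using FreeGroup.induction_on with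
  | C1 => intro v k; simp
  | of a => intro v k; simp [act_of]
  | inv_of a _ => intro v k; rw [act_inv_of, act_inv_of]; simp only [map_mul, map_inv]
  | mul x y hx hy =>
    intro v k
    simp only [map_mul, Equiv.Perm.mul_apply]
    rw [hy]
    exact hx _ _

lemma sval_map {K' : Type*} [Group K'] (σ : L → Equiv.Perm V) (val : V → L → K) (f : K →* K')
    (w : FreeGroup L) (v : V) : sval σ (fun v a => f (val v a)) w v = f (sval σ val w v) := by
  have := act_map σ val f w v 1
  rw [map_one] at this
  simp only [sval, this]

end Act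

section Path

variable {L V K : Type*} [Group K]

/-- some word representing `u` -/
noncomputable def wd (u : FreeGroup L) : List (L × Bool) := Quot.out u

lemma mk_wd (u : FreeGroup L) : FreeGroup.mk (wd u) = u := Quot.out_eq u

/-- All suffixes of the word `s`, read from the position `u`, stay in `T`. -/
def PathIn (T : Set (FreeGroup L)) (s : List (L × Bool)) (u : FreeGroup L) : Prop :=
  ∀ t : List (L × Bool), t <:+ s → FreeGroup.mk t * u ∈ T

lemma PathIn.tail {T : Set (FreeGroup L)} {p : L × Bool} {s : List (L × Bool)} {u : FreeGroup L}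
    (h : PathIn T (p :: s) u) : PathIn T s u :=
  fun t ht => h t (ht.trans (List.suffix_cons p s))

lemma PathIn.self {T : Set (FreeGroup L)} {s : List (L × Bool)} {u : FreeGroup L}
    (h : PathIn T s u) : FreeGroup.mk s * u ∈ T := h s (List.suffix_refl s)

lemma PathIn.start {T : Set (FreeGroup L)} {s : List (L × Bool)} {u : FreeGroup L}
    (h : PathIn T s u) : u ∈ T := by
  have := h [] (List.nil_suffix)
  rwa [← FreeGroup.one_eq_mk, one_mul] at this

lemma mk_cons_true (a : L) (s : List (L × Bool)) :
    FreeGroup.mk ((a, true) :: s) = FreeGroup.of a * FreeGroup.mk s := by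
  rw [FreeGroup.of, FreeGroup.mul_mk]; rfl

lemma mk_cons_false (a : L) (s : List (L × Bool)) :
    FreeGroup.mk ((a, false) :: s) = (FreeGroup.of a)⁻¹ * FreeGroup.mk s := by
  rw [FreeGroup.of, FreeGroup.inv_mk, FreeGroup.mul_mk]; rfl

/-- Bridge between the action on vertices and the potential on the tree. -/
lemma act_path {T : Set (FreeGroup L)} {σ : L → Equiv.Perm V} {cl : FreeGroup L → V}
    (hσ : ∀ u ∈ T, ∀ a, FreeGroup.of a * u ∈ T → σ a (cl u) = cl (FreeGroup.of a * u))
    (val : V → L → K) (s : List (L × Bool)) (u : FreeGroup L) (h : PathIn T s u) :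
    act σ val (FreeGroup.mk s) (cl u, 1) = (cl (FreeGroup.mk s * u),
      npot (fun u a => val (cl u) a) (FreeGroup.mk s * u) *
        (npot (fun u a => val (cl u) a) u)⁻¹) := by
  induction s with
  | nil => simp [← FreeGroup.one_eq_mk]
  | cons p s ih =>
    obtain ⟨a, b⟩ := p
    have ih' := ih h.tail
    cases b with
    | true =>
      rw [mk_cons_true, map_mul, Equiv.Perm.mul_apply, ih', act_of, mul_assoc, npot_of_mul]
      have h1 := h.tail.self
      have h2 := h.self
      rw [mk_cons_true, mul_assoc] at h2
      rw [hσ _ h1 a h2]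
      simp [mul_assoc]
    | false =>
      rw [mk_cons_false, map_mul, Equiv.Perm.mul_apply, ih', act_inv_of, mul_assoc,
        npot_inv_of_mul]
      have h1 := h.tail.self
      have h2 := h.self
      rw [mk_cons_false, mul_assoc] at h2
      have h3 := hσ _ h2 a (by rw [mul_inv_cancel_left]; exact h1)
      rw [mul_inv_cancel_left] at h3
      rw [← h3]
      simp [mul_assoc]

end Path

end Vale.Agent.H17.Howie
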