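import Vale.Agent.H17.HowieFinal

namespace Vale.Agent.H17.Howie

universe u

open Monoid

section Stage

variable {G : Type u} [Group G] {I J : Type} {V : Type} {𝔽 : Type*} [Field 𝔽]

/-- Data of a finite derivation. -/
structure Deriv (G : Type u) [Group G] (I J : Type) where
  T : Set (FreeGroup (G ⊕ J))
  fin : T.Finite
  one_mem : (1 : FreeGroup (G ⊕ J)) ∈ T
  g : G
  g_mem : FreeGroup.of (Sum.inl g) ∈ T
  w : I → FreeGroup (G ⊕ J)
  BG : Set (FreeGroup G × FreeGroup (G ⊕ J))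
  Bw : Set (I × FreeGroup (G ⊕ J))
  BG1 : ∀ r u, (r, u) ∈ BG → FreeGroup.lift id r = 1
  BG2 : ∀ r u, (r, u) ∈ BG → PathIn T (gw (wd r)) u
  BG3 : ∀ r u, (r, u) ∈ BG → PathIn T (wd u) 1
  Bw2 : ∀ i u, (i, u) ∈ Bw → PathIn T (wd (w i)) u
  Bw3 : ∀ i u, (i, u) ∈ Bw → PathIn T (wd u) 1
  hg : FreeGroup.of (Sum.inl g) ∈ Subgroup.closure
      ({x | ∃ r u, (r, u) ∈ BG ∧ x = u⁻¹ * FreeGroup.map Sum.inl r * u} ∪
        {x | ∃ i u, (i, u) ∈ Bw ∧ x = u⁻¹ * w i * u})

/-- closedness of a labelling along all relators of the derivation -/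
def Deriv.Closed (D : Deriv G I J) {X : Type*} (cl : FreeGroup (G ⊕ J) → X) : Prop :=
  (∀ r u, (r, u) ∈ D.BG → cl (FreeGroup.map Sum.inl r * u) = cl u) ∧
    (∀ i u, (i, u) ∈ D.Bw → cl (D.w i * u) = cl u)

/-- Subgroups attached to components have no characters to `𝔽`. -/
lemma no_char [Finite V] (D : Deriv G I J)
    (cl : FreeGroup (G ⊕ J) → V) (hcl : D.Closed cl)
    (hsurj : ∀ v, ∃ u ∈ D.T, cl u = v)
    (hstar : Star 𝔽 D.Bw D.w cl)
    (hM : ∀ k : FreeGroup (G ⊕ J) → 𝔽, Cmp D.T cl k → D.Closed k →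
      ∀ u ∈ D.T, ∀ u' ∈ D.T, cl u = cl u' → k u = k u')
    (σ : (G ⊕ J) → Equiv.Perm V)
    (hσ : ∀ u ∈ D.T, ∀ a, FreeGroup.of a * u ∈ D.T → σ a (cl u) = cl (FreeGroup.of a * u))
    (GE : V → G → Prop)
    (hGE : ∀ v a, GE v a ↔ ∃ u ∈ D.T, FreeGroup.of (Sum.inl a) * u ∈ D.T ∧ cl u = v)
    (β : V → V) (τ : V → G)
    (hτ : ∀ v, Reach GE (fun a => σ (Sum.inl a)) (β v) (τ v) v)
    (hβ : ∀ v v' h, Reach GE (fun a => σ (Sum.inl a)) v h v' → β v = β v')
    (P : V → Subgroup G)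
    (hP : ∀ c, P c = Subgroup.closure {x | ∃ v a, GE v a ∧ β v = c ∧
      x = (τ (σ (Sum.inl a) v))⁻¹ * a * τ v})
    (c : V) (θ : P c →* Multiplicative 𝔽) : θ = 1 := by
  classical
  have hβ1 : ∀ v a, GE v a → β (σ (Sum.inl a) v) = β v := by
    intro v a hva
    have := Reach.fwd (ν := fun a => σ (Sum.inl a)) (v := v) v 1 a Reach.refl hva
    exact (hβ _ _ _ this).symm
  have hmem : ∀ v a, GE v a → (τ (σ (Sum.inl a) v))⁻¹ * a * τ v ∈ P (β v) := by
    intro v a hva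
    rw [hP]
    exact Subgroup.subset_closure ⟨v, a, hva, rfl, rfl⟩
  set kap : V → (G ⊕ J) → (∀ c, P c) := kapf P β τ (fun a => σ (Sum.inl a)) with hkap
  have tel := telescope (T := D.T) (cl := cl) (σ := σ) hσ P β τ
    (fun u hu a hau => hβ1 _ a ((hGE _ _).2 ⟨u, hu, hau, rfl⟩))
    (fun u hu a hau => hmem _ a ((hGE _ _).2 ⟨u, hu, hau, rfl⟩))
  -- the additive edge function coming from θ
  let ev : (∀ c, P c) →* Multiplicative 𝔽 := θ.comp (Pi.evalMonoidHom (fun c => P c) c)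
  let cG : FreeGroup (G ⊕ J) → (G ⊕ J) → 𝔽 := fun u a => Multiplicative.toAdd (ev (kap (cl u) a))
  have hcG : ∀ (s : List ((G ⊕ J) × Bool)) (u : FreeGroup (G ⊕ J)), PathIn D.T s u →
      pot cG (FreeGroup.mk s * u) - pot cG u =
        Multiplicative.toAdd (ev (sval σ kap (FreeGroup.mk s) (cl u))) := by
    intro s u hs
    rw [← sval_map σ kap ev]
    have h1 := act_path hσ (fun v a => ev (kap v a)) s u hs
    rw [sval, h1]
    simp only [pot, cG, toAdd_mul, toAdd_inv]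
    rw [sub_eq_add_neg]
    rfl
  obtain ⟨cx, hcx⟩ := hstar (fun i v => - Multiplicative.toAdd (ev (sval σ kap (D.w i) v)))
  let k : FreeGroup (G ⊕ J) → 𝔽 := fun u => pot cG u + pot (cX cl cx) u
  have hk : ∀ u a, k (FreeGroup.of a * u) - k u = cG u a + cX cl cx u a := by
    intro u a
    simp only [k, pot_of_mul]
    ring
  have hkcmp : Cmp D.T cl k := by
    intro u _ u' _ a _ _ huu
    rw [hk, hk]
    simp only [cG, cX, huu]
  have hkcl : D.Closed k := by
    constructor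
    · intro r u hru
      have h1 := tel (wd r) u (D.BG2 r u hru)
      rw [mk_gw, mk_wd, D.BG1 r u hru, hcl.1 r u hru, mul_one, inv_mul_cancel, sg_one] at h1
      have h2 := hcG (gw (wd r)) u (D.BG2 r u hru)
      rw [mk_gw, mk_wd] at h2
      have h3 : sval σ kap (FreeGroup.map Sum.inl r) (cl u) = 1 := h1.2.2
      rw [h3, map_one, toAdd_one] at h2
      simp only [k]
      rw [pot_cX_inl]
      linear_combination h2
    · intro i u hiu
      have h2 := hcG (wd (D.w i)) u (D.Bw2 i u hiu)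
      rw [mk_wd] at h2
      have h3 := hcx i u hiu
      simp only [k]
      linear_combination h2 + h3
  have hconst := hM k hkcmp hkcl
  choose rep hrepT hrep using hsurj
  let κ : V → 𝔽 := fun v => k (rep v)
  have hκ : ∀ u ∈ D.T, κ (cl u) = k u := fun u hu => hconst _ (hrepT _) _ hu (hrep _)
  have hedge : ∀ v a, GE v a → κ (σ (Sum.inl a) v) - κ v =
      Multiplicative.toAdd (ev (sg P (β v) ((τ (σ (Sum.inl a) v))⁻¹ * a * τ v))) := by
    intro v a hva
    obtain ⟨u, hu, hau, rfl⟩ := (hGE v a).1 hva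
    rw [hσ u hu _ hau, hκ _ hau, hκ _ hu, hk]
    simp only [cG, cX, Sum.elim_inl, add_zero, hkap, kapf]
    rw [hσ u hu _ hau]
  -- along reachability
  have hreach : ∀ v1 h v2, Reach GE (fun a => σ (Sum.inl a)) v1 h v2 → β v1 = c →
      β v2 = c ∧ (τ v2)⁻¹ * h * τ v1 ∈ P c ∧ κ v2 - κ v1 =
        Multiplicative.toAdd (ev (sg P c ((τ v2)⁻¹ * h * τ v1))) := by
    intro v1 h v2 hr hb
    induction hr with
    | refl =>
      rw [mul_one, inv_mul_cancel, sg_one, map_one, toAdd_one, sub_self]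
      exact ⟨hb, one_mem _, rfl⟩
    | fwd v' h a _ hge ih =>
      obtain ⟨i1, i2, i3⟩ := ih
      have e1 := hedge v' a hge
      have m1 := hmem v' a hge
      rw [i1] at e1 m1
      have hprod : (τ (σ (Sum.inl a) v'))⁻¹ * (a * h) * τ v1 =
          ((τ (σ (Sum.inl a) v'))⁻¹ * a * τ v') * ((τ v')⁻¹ * h * τ v1) := by
        simp [mul_assoc]
      rw [hprod, sg_mul P c m1 i2, _root_.map_mul, toAdd_mul]
      refine ⟨by rw [hβ1 v' a hge, i1], mul_mem m1 i2, ?_⟩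
      linear_combination e1 + i3
    | bwd v' h a _ hge ih =>
      obtain ⟨i1, i2, i3⟩ := ih
      have e1 := hedge v' a hge
      have m1 := hmem v' a hge
      have i1' : β v' = c := by rw [← hβ1 v' a hge]; exact i1
      rw [i1'] at e1 m1
      have hprod : (τ v')⁻¹ * (a⁻¹ * h) * τ v1 =
          ((τ (σ (Sum.inl a) v'))⁻¹ * a * τ v')⁻¹ *
            ((τ (σ (Sum.inl a) v'))⁻¹ * h * τ v1) := by
        simp [mul_assoc]
      rw [hprod, sg_mul P c (inv_mem m1) i2, sg_inv P c m1, _root_.map_mul, _root_.map_inv,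
        toAdd_mul, toAdd_inv]
      refine ⟨i1', mul_mem (inv_mem m1) i2, ?_⟩
      linear_combination i3 - e1
  have hβ2 : ∀ v, β (β v) = β v := fun v => hβ _ _ _ (hτ v)
  have hconstc : ∀ v, β v = c → κ v = κ c + Multiplicative.toAdd (ev (sg P c (τ c))) := by
    intro v hv
    have h1 := hreach (β v) (τ v) v (hτ v) (by rw [hβ2, hv])
    rw [hv, inv_mul_cancel, one_mul] at h1
    linear_combination h1.2.2
  -- θ kills the generators
  ext ⟨x, hx⟩
  have : ∀ y (hy : y ∈ P c), ev (sg P c y) = θ ⟨y, hy⟩ := by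
    intro y hy
    simp only [ev, MonoidHom.comp_apply, Pi.evalMonoidHom_apply]
    rw [sg_apply_same P c hy]
  have key : ∀ y (hy : y ∈ P c), ev (sg P c y) = 1 := by
    intro y hy
    have hy' := hy
    rw [hP] at hy'
    induction hy' using Subgroup.closure_induction with
    | mem y hy1 =>
      obtain ⟨v, a, hge, hb, rfl⟩ := hy1
      have e1 := hedge v a hge
      rw [hb] at e1
      rw [hconstc v hb, hconstc _ (by rw [hβ1 v a hge, hb]), sub_self] at e1
      exact (toAdd_eq_zero.1 e1.symm)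
    | one => rw [sg_one, map_one]
    | mul y z hy1 hz1 ihy ihz =>
      rw [← hP] at hy1 hz1
      rw [sg_mul P c hy1 hz1, _root_.map_mul, ihy hy1, ihz hz1, one_mul]
    | inv y hy1 ihy =>
      rw [← hP] at hy1
      rw [sg_inv P c hy1, _root_.map_inv, ihy hy1, inv_one]
  rw [← this x hx, key x hx]
  rfl

/-- Generators of `P c` are finitely many. -/
lemma gen_finite (T : Set (FreeGroup (G ⊕ J))) (hT : T.Finite)
    (cl : FreeGroup (G ⊕ J) → V) (σ : (G ⊕ J) → Equiv.Perm V)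
    (hσ : ∀ u ∈ T, ∀ a, FreeGroup.of a * u ∈ T → σ a (cl u) = cl (FreeGroup.of a * u))
    (GE : V → G → Prop)
    (hGE : ∀ v a, GE v a ↔ ∃ u ∈ T, FreeGroup.of (Sum.inl a) * u ∈ T ∧ cl u = v)
    (β : V → V) (τ : V → G) (c : V) :
    {x | ∃ v a, GE v a ∧ β v = c ∧ x = (τ (σ (Sum.inl a) v))⁻¹ * a * τ v}.Finite := by
  classical
  let F : FreeGroup (G ⊕ J) × FreeGroup (G ⊕ J) → G := fun p =>
    if h : ∃ a : G, p.2 = FreeGroup.of (Sum.inl a) * p.1 then
      (τ (cl p.2))⁻¹ * h.choose * τ (cl p.1) else 1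
  refine ((hT.prod hT).image F).subset ?_
  rintro x ⟨v, a, hge, _, rfl⟩
  obtain ⟨u, hu, hau, rfl⟩ := (hGE v a).1 hge
  refine ⟨(u, FreeGroup.of (Sum.inl a) * u), ⟨hu, hau⟩, ?_⟩
  have hex : ∃ a' : G, FreeGroup.of (Sum.inl a) * u = FreeGroup.of (Sum.inl a') * u := ⟨a, rfl⟩
  have hch := hex.choose_spec
  have ha : hex.choose = a := by
    have h2 := mul_right_cancel hch
    have h3 := FreeGroup.of_injective h2
    exact (Sum.inl_injective h3).symm
  simp only [F]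
  rw [dif_pos hex, ha, hσ u hu _ hau]

/-- The last stage: `g = 1`. -/
theorem final_stage [Finite I] [Finite J] [Finite V] (D : Deriv G I J)
    (cl : FreeGroup (G ⊕ J) → V) (hdet : Det D.T cl) (hcl : D.Closed cl)
    (hsurj : ∀ v, ∃ u ∈ D.T, cl u = v)
    (hstar : Star 𝔽 D.Bw D.w cl)
    (hM : ∀ k : FreeGroup (G ⊕ J) → 𝔽, Cmp D.T cl k → D.Closed k →
      ∀ u ∈ D.T, ∀ u' ∈ D.T, cl u = cl u' → k u = k u')
    (hP : ∀ P : Subgroup G, P.FG → (∀ θ : P →* Multiplicative 𝔽, θ = 1) → HoweF 𝔽 P) :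
    D.g = 1 := by
  classical
  obtain ⟨σ, hσ⟩ := exists_perm hdet
  let GE : V → G → Prop := fun v a =>
    ∃ u ∈ D.T, FreeGroup.of (Sum.inl a) * u ∈ D.T ∧ cl u = v
  have hGE : ∀ v a, GE v a ↔ ∃ u ∈ D.T, FreeGroup.of (Sum.inl a) * u ∈ D.T ∧ cl u = v :=
    fun v a => Iff.rfl
  obtain ⟨β, τ, hτ, hβ⟩ := exists_base GE (fun a => σ (Sum.inl a))
  let P : V → Subgroup G := fun c => Subgroup.closure {x | ∃ v a, GE v a ∧ β v = c ∧
      x = (τ (σ (Sum.inl a) v))⁻¹ * a * τ v}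
  have hPFG : ∀ c, (P c).FG := fun c => by
    rw [Subgroup.fg_iff]
    exact ⟨_, rfl, gen_finite D.T D.fin cl σ hσ GE hGE β τ c⟩
  have hPH : ∀ c, HoweF 𝔽 (P c) := fun c => hP (P c) (hPFG c)
    (no_char D cl hcl hsurj hstar hM σ hσ GE hGE β τ hτ hβ P (fun _ => rfl) c)
  have hpi : HoweF 𝔽 (∀ c, P c) := HoweF.pi (fun c => P c) hPH
  have hβ1 : ∀ v a, GE v a → β (σ (Sum.inl a) v) = β v := by
    intro v a hva
    have := Reach.fwd (ν := fun a => σ (Sum.inl a)) (v := v) v 1 a Reach.refl hva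
    exact (hβ _ _ _ this).symm
  have hmem : ∀ v a, GE v a → (τ (σ (Sum.inl a) v))⁻¹ * a * τ v ∈ P (β v) := by
    intro v a hva
    exact Subgroup.subset_closure ⟨v, a, hva, rfl, rfl⟩
  set kap : V → (G ⊕ J) → (∀ c, P c) := kapf P β τ (fun a => σ (Sum.inl a)) with hkap
  have tel := telescope (T := D.T) (cl := cl) (σ := σ) hσ P β τ
    (fun u hu a hau => hβ1 _ a ((hGE _ _).2 ⟨u, hu, hau, rfl⟩))
    (fun u hu a hau => hmem _ a ((hGE _ _).2 ⟨u, hu, hau, rfl⟩))
  -- the system over the product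
  let valU : V → (G ⊕ J) → Coprod (∀ c, P c) (FreeGroup (V × J)) := fun v =>
    Sum.elim (fun a => Coprod.inl (kap v (Sum.inl a))) (fun j => Coprod.inr (FreeGroup.of (v, j)))
  let Φ : Type := {p : I × V // ∃ u, (p.1, u) ∈ D.Bw ∧ cl u = p.2}
  let W : Φ → Coprod (∀ c, P c) (FreeGroup (V × J)) := fun p => sval σ valU (D.w p.1.1) p.1.2
  have hNS : NS 𝔽 W := by
    intro b
    obtain ⟨c, hc⟩ := hstar (fun i v => if h : ∃ u, (i, u) ∈ D.Bw ∧ cl u = v then
      b ⟨(i, v), h⟩ else 0)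
    refine ⟨fun p => c p.1 p.2, ?_⟩
    rintro ⟨⟨i, v⟩, u, hu, hv⟩
    change cl u = v at hv
    subst hv
    simp only [W]
    rw [← sval_map σ valU (chi fun p => c p.1 p.2)]
    have hval : (fun v a => chi (fun p : V × J => c p.1 p.2) (valU v a)) =
        fun v a => Multiplicative.ofAdd (Sum.elim (fun _ => (0 : 𝔽)) (fun j => c v j) a) := by
      funext v a
      rcases a with a | j
      · simp [valU, chi]
      · simp [valU, chi]
    rw [hval]
    have h1 := act_path hσ (fun v a => Multiplicative.ofAdd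
      (Sum.elim (fun _ => (0 : 𝔽)) (fun j => c v j) a)) (wd (D.w i)) u (D.Bw2 i u hu)
    rw [mk_wd] at h1
    rw [sval, h1]
    have h2 := hc i u hu
    rw [dif_pos ⟨u, hu, rfl⟩] at h2
    rw [← h2]
    simp only [pot]
    rw [ofAdd_sub]
    simp only [ofAdd_toAdd]
    rw [div_eq_mul_inv]
    rfl
  obtain ⟨H, _, φ, y, hφ, hy⟩ := hpi Φ (V × J) W hNS
  let val : V → (G ⊕ J) → H := fun v a => Coprod.lift φ (FreeGroup.lift y) (valU v a)
  have hval1 : ∀ v a, val v (Sum.inl a) = φ (kap v (Sum.inl a)) := by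
    intro v a; simp [val, valU]
  have hw : ∀ i u, (i, u) ∈ D.Bw → sval σ val (D.w i) (cl u) = 1 := by
    intro i u hu
    have := hy ⟨(i, cl u), u, hu, rfl⟩
    simp only [W] at this
    rw [← sval_map σ valU] at this
    exact this
  have hr : ∀ r u, (r, u) ∈ D.BG → sval σ val (FreeGroup.map Sum.inl r) (cl u) = 1 := by
    intro r u hru
    have h1 := tel (wd r) u (D.BG2 r u hru)
    rw [mk_gw, mk_wd, D.BG1 r u hru, hcl.1 r u hru, mul_one, inv_mul_cancel, sg_one] at h1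
    have h2 := act_inl σ kap val φ hval1 r (cl u) 1
    rw [map_one] at h2
    rw [sval, h2, h1.2.2, map_one]
  -- the stabiliser
  let p0 : V × H := (cl 1, 1)
  let S : Subgroup (FreeGroup (G ⊕ J)) :=
    (MulAction.stabilizer (Equiv.Perm (V × H)) p0).comap (act σ val)
  have hmemS : ∀ x, x ∈ S ↔ act σ val x p0 = p0 := by
    intro x
    simp only [S, Subgroup.mem_comap, MulAction.mem_stabilizer_iff]
    rfl
  have hconj : ∀ (r u : FreeGroup (G ⊕ J)), PathIn D.T (wd u) 1 →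
      (∃ s, FreeGroup.mk s = r ∧ PathIn D.T s u) →
      cl (r * u) = cl u → sval σ val r (cl u) = 1 → u⁻¹ * r * u ∈ S := by
    intro r u hu hs hcu hsv
    obtain ⟨s, rfl, hs⟩ := hs
    rw [hmemS]
    have h1 := act_path hσ val (wd u) 1 hu
    rw [mk_wd, mul_one] at h1
    have h2 : act σ val (FreeGroup.mk s) (cl u, 1) = (cl u, 1) := by
      apply Prod.ext
      · rw [act_path hσ val s u hs]; exact hcu
      · exact hsv
    have h3 : ∀ kk : H, act σ val (FreeGroup.mk s) (cl u, kk) = (cl u, kk) := by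
      intro kk
      rw [act_apply, hsv, h2, one_mul]
    rw [_root_.map_mul, _root_.map_mul, Equiv.Perm.mul_apply, Equiv.Perm.mul_apply]
    simp only [p0]
    rw [h1, h3, ← h1, ← Equiv.Perm.mul_apply, ← _root_.map_mul, inv_mul_cancel, map_one,
      Equiv.Perm.one_apply]
  have hgS : FreeGroup.of (Sum.inl D.g) ∈ S := by
    have : Subgroup.closure
      ({x | ∃ r u, (r, u) ∈ D.BG ∧ x = u⁻¹ * FreeGroup.map Sum.inl r * u} ∪
        {x | ∃ i u, (i, u) ∈ D.Bw ∧ x = u⁻¹ * D.w i * u}) ≤ S := by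
      rw [Subgroup.closure_le]
      rintro x (⟨r, u, hru, rfl⟩ | ⟨i, u, hiu, rfl⟩)
      · exact hconj _ u (D.BG3 r u hru) ⟨gw (wd r), by rw [mk_gw, mk_wd], D.BG2 r u hru⟩
          (hcl.1 r u hru) (hr r u hru)
      · exact hconj _ u (D.Bw3 i u hiu) ⟨wd (D.w i), mk_wd _, D.Bw2 i u hiu⟩
          (hcl.2 i u hiu) (hw i u hiu)
    exact this D.hg
  rw [hmemS, act_of] at hgS
  have hge : GE (cl 1) D.g := ⟨1, D.one_mem, by rw [mul_one]; exact D.g_mem, rfl⟩
  have e1 : σ (Sum.inl D.g) (cl 1) = cl 1 := congrArg Prod.fst hgS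
  have e2 : val (cl 1) (Sum.inl D.g) * 1 = 1 := congrArg Prod.snd hgS
  rw [mul_one, hval1] at e2
  have e3 : kap (cl 1) (Sum.inl D.g) = 1 := hφ (by rw [e2, map_one])
  have e4 : sg P (β (cl 1)) ((τ (σ (Sum.inl D.g) (cl 1)))⁻¹ * D.g * τ (cl 1)) = 1 := e3
  have e5 := sg_eq_one P _ (hmem _ _ hge) e4
  rw [e1] at e5
  have e6 : D.g * τ (cl 1) = τ (cl 1) := by
    have := congrArg (fun x => τ (cl 1) * x) e5
    simpa [mul_assoc] using this
  exact mul_eq_right.1 e6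

end Stage

end Vale.Agent.H17.Howie
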