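import Vale.Agent.H17.HowiePot

namespace Vale.Agent.H17.Howie

section APot

variable {L M M' : Type*} [AddCommGroup M] [AddCommGroup M']

/-- additive potential -/
def pot (c : FreeGroup L → L → M) (u : FreeGroup L) : M :=
  Multiplicative.toAdd (npot (K := Multiplicative M) (fun u a => Multiplicative.ofAdd (c u a)) u)

lemma pot_one (c : FreeGroup L → L → M) : pot c 1 = 0 := by simp [pot, npot_one]

lemma pot_of_mul (c : FreeGroup L → L → M) (a : L) (u : FreeGroup L) :
    pot c (FreeGroup.of a * u) = c u a + pot c u := by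
  simp [pot, npot_of_mul]

lemma pot_inv_of_mul (c : FreeGroup L → L → M) (a : L) (u : FreeGroup L) :
    pot c ((FreeGroup.of a)⁻¹ * u) = - c ((FreeGroup.of a)⁻¹ * u) a + pot c u := by
  simp [pot, npot_inv_of_mul]

lemma pot_unique (c : FreeGroup L → L → M) (f : FreeGroup L → M) (h1 : f 1 = 0)
    (h : ∀ a u, f (FreeGroup.of a * u) = c u a + f u) (u : FreeGroup L) : f u = pot c u := by
  obtain ⟨s, rfl⟩ : ∃ s, FreeGroup.mk s = u := ⟨wd u, mk_wd u⟩
  induction s with
  | nil => rw [← FreeGroup.one_eq_mk, h1, pot_one]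
  | cons p s ih =>
    obtain ⟨a, b⟩ := p
    cases b with
    | true => rw [mk_cons_true, h, pot_of_mul, ih]
    | false =>
      rw [mk_cons_false, pot_inv_of_mul, ← ih]
      have := h a ((FreeGroup.of a)⁻¹ * FreeGroup.mk s)
      rw [mul_inv_cancel_left] at this
      rw [this]; abel

lemma pot_add (c c' : FreeGroup L → L → M) (u : FreeGroup L) :
    pot (fun u a => c u a + c' u a) u = pot c u + pot c' u := by
  symm
  apply pot_unique (fun u a => c u a + c' u a) (fun u => pot c u + pot c' u)
  · simp [pot_one]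
  · intro a u; simp only [pot_of_mul]; abel

lemma pot_zero (u : FreeGroup L) : pot (fun _ _ => (0 : M)) u = 0 := by
  symm
  apply pot_unique (fun _ _ => (0 : M)) (fun _ => 0)
  · rfl
  · intro a u; simp

lemma pot_compare (Tr : M →+ M') (c : FreeGroup L → L → M) (c' : FreeGroup L → L → M')
    (s : List (L × Bool)) (u u' : FreeGroup L)
    (h : ∀ t : List (L × Bool), t <:+ s → ∀ a, c' (FreeGroup.mk t * u') a =
      Tr (c (FreeGroup.mk t * u) a)) :
    pot c' (FreeGroup.mk s * u') - pot c' u' = Tr (pot c (FreeGroup.mk s * u) - pot c u) := by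
  induction s with
  | nil => simp [← FreeGroup.one_eq_mk]
  | cons p s ih =>
    obtain ⟨a, b⟩ := p
    have ih' := ih (fun t ht a => h t (ht.trans (List.suffix_cons _ s)) a)
    cases b with
    | true =>
      have h1 := h s (List.suffix_cons _ s) a
      rw [mk_cons_true, mul_assoc, mul_assoc, pot_of_mul, pot_of_mul, h1, add_sub_assoc,
        add_sub_assoc, ih', map_add]
    | false =>
      have h1 := h _ (List.suffix_refl _) a
      rw [mk_cons_false, mul_assoc, mul_assoc] at h1
      rw [mk_cons_false, mul_assoc, mul_assoc, pot_inv_of_mul, pot_inv_of_mul, h1, add_sub_assoc,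
        add_sub_assoc, ih', map_add, map_neg]

end APot

section Star

variable {A I J V : Type*} {𝔽 : Type*} [Field 𝔽]

/-- determinism of a vertex labelling on `T` -/
def Det {L : Type*} (T : Set (FreeGroup L)) (cl : FreeGroup L → V) : Prop :=
  ∀ u ∈ T, ∀ u' ∈ T, ∀ a, FreeGroup.of a * u ∈ T → FreeGroup.of a * u' ∈ T →
    (cl u = cl u' ↔ cl (FreeGroup.of a * u) = cl (FreeGroup.of a * u'))

/-- compatibility of a potential with a vertex labelling -/
def Cmp {L : Type*} (T : Set (FreeGroup L)) (cl : FreeGroup L → V) (k : FreeGroup L → 𝔽) : Prop :=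
  ∀ u ∈ T, ∀ u' ∈ T, ∀ a, FreeGroup.of a * u ∈ T → FreeGroup.of a * u' ∈ T → cl u = cl u' →
    k (FreeGroup.of a * u) - k u = k (FreeGroup.of a * u') - k u'

lemma Det.path {L : Type*} {T : Set (FreeGroup L)} {cl : FreeGroup L → V} (h : Det T cl)
    {s : List (L × Bool)} {u u' : FreeGroup L} (hu : PathIn T s u) (hu' : PathIn T s u')
    (huu : cl u = cl u') : cl (FreeGroup.mk s * u) = cl (FreeGroup.mk s * u') := by
  induction s with
  | nil => simpa [← FreeGroup.one_eq_mk] using huu
  | cons p s ih =>
    obtain ⟨a, b⟩ := p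
    have ih' := ih hu.tail hu'.tail
    have h1 := hu.self
    have h2 := hu'.self
    cases b with
    | true =>
      rw [mk_cons_true, mul_assoc] at h1 h2 ⊢
      rw [mul_assoc]
      exact (h _ hu.tail.self _ hu'.tail.self a h1 h2).1 ih'
    | false =>
      rw [mk_cons_false, mul_assoc] at h1 h2 ⊢
      rw [mul_assoc]
      refine (h _ h1 _ h2 a ?_ ?_).2 ?_
      · rw [mul_inv_cancel_left]; exact hu.tail.self
      · rw [mul_inv_cancel_left]; exact hu'.tail.self
      · rw [mul_inv_cancel_left, mul_inv_cancel_left]; exact ih'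

lemma Cmp.path {L : Type*} {T : Set (FreeGroup L)} {cl : FreeGroup L → V} {k : FreeGroup L → 𝔽}
    (h : Det T cl) (hk : Cmp T cl k)
    {s : List (L × Bool)} {u u' : FreeGroup L} (hu : PathIn T s u) (hu' : PathIn T s u')
    (huu : cl u = cl u') :
    k (FreeGroup.mk s * u) - k u = k (FreeGroup.mk s * u') - k u' := by
  induction s with
  | nil => simp [← FreeGroup.one_eq_mk]
  | cons p s ih =>
    obtain ⟨a, b⟩ := p
    have ih' := ih hu.tail hu'.tail
    have h1 := hu.self
    have h2 := hu'.self
    have h3 := h.path hu.tail hu'.tail huu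
    cases b with
    | true =>
      rw [mk_cons_true, mul_assoc] at h1 h2 ⊢
      rw [mul_assoc]
      have h4 := hk _ hu.tail.self _ hu'.tail.self a h1 h2 h3
      linear_combination h4 + ih'
    | false =>
      have h5 := h.path hu hu' huu
      rw [mk_cons_false, mul_assoc] at h1 h2 h5 ⊢
      rw [mul_assoc] at h5 ⊢
      have h4 := hk _ h1 _ h2 a (by rw [mul_inv_cancel_left]; exact hu.tail.self)
        (by rw [mul_inv_cancel_left]; exact hu'.tail.self) h5
      rw [mul_inv_cancel_left, mul_inv_cancel_left] at h4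
      linear_combination ih' - h4

/-- edge function supported on the letters of the second kind -/
def cX {M : Type*} [Zero M] (cl : FreeGroup (A ⊕ J) → V) (c : V → J → M) :
    FreeGroup (A ⊕ J) → (A ⊕ J) → M :=
  fun u a => Sum.elim (fun _ => 0) (fun j => c (cl u) j) a

/-- solvability of the linearised system for arbitrary right-hand side -/
def Star (𝔽 : Type*) [Field 𝔽] (Bw : Set (I × FreeGroup (A ⊕ J))) (w : I → FreeGroup (A ⊕ J))
    (cl : FreeGroup (A ⊕ J) → V) : Prop :=
  ∀ b : I → V → 𝔽, ∃ c : V → J → 𝔽, ∀ i u, (i, u) ∈ Bw →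
    pot (cX cl c) (w i * u) - pot (cX cl c) u = b i (cl u)

open Polynomial in
lemma coeff_taylor_top (p : 𝔽[X]) (d : ℕ) (hp : p.degree < (d + 1 : ℕ)) (s : 𝔽) :
    (taylor s p).coeff d = p.coeff d := by
  by_cases h : p.natDegree = d
  · subst h
    have := leadingCoeff_taylor (f := p) (r := s)
    rw [leadingCoeff, natDegree_taylor] at this
    exact this
  · have h1 : p.natDegree < d := by
      by_cases h0 : p = 0
      · subst h0; simp at h ⊢; omega
      have := (natDegree_lt_iff_degree_lt h0).2 hp
      omega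
    rw [coeff_eq_zero_of_natDegree_lt h1, coeff_eq_zero_of_natDegree_lt]
    rwa [natDegree_taylor]

open Polynomial in
/-- polynomial-valued edge function, twisted by the potential `k` -/
noncomputable def cP (cl : FreeGroup (A ⊕ J) → V) (k : FreeGroup (A ⊕ J) → 𝔽)
    (γ : V → J → 𝔽[X]) : FreeGroup (A ⊕ J) → (A ⊕ J) → 𝔽[X] :=
  fun u a => Sum.elim (fun _ => 0) (fun j => taylor (k u) (γ (cl u) j)) a

open Polynomial in
lemma star_poly {T : Set (FreeGroup (A ⊕ J))} {Bw : Set (I × FreeGroup (A ⊕ J))}
    {w : I → FreeGroup (A ⊕ J)} {cl : FreeGroup (A ⊕ J) → V} {k : FreeGroup (A ⊕ J) → 𝔽}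
    (hdet : Det T cl) (hk : Cmp T cl k)
    (hpath : ∀ i u, (i, u) ∈ Bw → PathIn T (wd (w i)) u)
    (hstar : Star 𝔽 Bw w cl) (d : ℕ) :
    ∀ β : I → V → 𝔽[X], (∀ i v, (β i v).degree < (d : ℕ)) →
      ∃ γ : V → J → 𝔽[X], ∀ i u, (i, u) ∈ Bw →
        pot (cP cl k γ) (w i * u) - pot (cP cl k γ) u = taylor (k u) (β i (cl u)) := by
  classical
  induction d with
  | zero =>
    intro β hβ
    refine ⟨fun _ _ => 0, ?_⟩
    intro i u _
    have h0 : β i (cl u) = 0 := by
      have := hβ i (cl u)
      rw [← Polynomial.degree_eq_bot]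
      simpa using this
    have h1 : (cP cl k (fun _ _ => (0 : 𝔽[X]))) = fun _ _ => 0 := by
      funext u a
      rcases a with a | a <;> simp [cP]
    rw [h1, pot_zero, pot_zero, h0]; simp
  | succ d ih =>
    intro β hβ
    obtain ⟨c, hc⟩ := hstar (fun i v => (β i v).coeff d)
    set γ0 : V → J → 𝔽[X] := fun v j => monomial d (c v j) with hγ0
    set D0 : I → FreeGroup (A ⊕ J) → 𝔽[X] := fun i u =>
      pot (cP cl k γ0) (w i * u) - pot (cP cl k γ0) u with hD0
    -- top coefficient
    have htop : ∀ i u, (i, u) ∈ Bw → (D0 i u).coeff d = (β i (cl u)).coeff d := by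
      intro i u hiu
      have := pot_compare ((lcoeff 𝔽 d).toAddMonoidHom) (cP cl k γ0) (cX cl c)
        (wd (w i)) u u (by
          intro t _ a
          rcases a with a | a
          · simp [cP, cX]
          · simp only [cP, cX, Sum.elim_inr, hγ0]
            have h2 := coeff_taylor_top (monomial d (c (cl (FreeGroup.mk t * u)) a)) d
              (lt_of_le_of_lt (degree_monomial_le _ _) (by exact_mod_cast Nat.lt_succ_self d))
              (k (FreeGroup.mk t * u))
            rw [coeff_monomial_same] at h2
            exact h2.symm)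
      rw [mk_wd] at this
      rw [hc i u hiu] at this
      exact this.symm
    have hhigh : ∀ i u, ∀ e, d < e → (D0 i u).coeff e = 0 := by
      intro i u e he
      have := pot_compare ((lcoeff 𝔽 e).toAddMonoidHom) (cP cl k γ0)
        (fun _ _ => (0 : 𝔽)) (wd (w i)) u u (by
          intro t _ a
          rcases a with a | a
          · simp [cP]
          · simp only [cP, Sum.elim_inr, hγ0]
            symm
            change (taylor _ (monomial d (c (cl (FreeGroup.mk t * u)) a))).coeff e = 0
            apply coeff_eq_zero_of_natDegree_lt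
            rw [natDegree_taylor]
            exact lt_of_le_of_lt (natDegree_monomial_le _) he)
      rw [mk_wd, pot_zero, pot_zero, sub_zero] at this
      exact this.symm
    have hdeg : ∀ i u, (D0 i u).degree < (d + 1 : ℕ) := by
      intro i u
      rw [degree_lt_iff_coeff_zero]
      intro e he
      exact hhigh i u e (by omega)
    set ψ : I → FreeGroup (A ⊕ J) → 𝔽[X] := fun i u => taylor (-k u) (D0 i u) with hψ
    have hψdeg : ∀ i u, (ψ i u).degree < (d + 1 : ℕ) := by
      intro i u
      rw [hψ]; simp only [degree_taylor]; exact hdeg i u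
    have hψtop : ∀ i u, (i, u) ∈ Bw → (ψ i u).coeff d = (β i (cl u)).coeff d := by
      intro i u hiu
      rw [hψ]; simp only
      rw [coeff_taylor_top _ _ (hdeg i u), htop i u hiu]
    have hψcl : ∀ i u u', (i, u) ∈ Bw → (i, u') ∈ Bw → cl u = cl u' → ψ i u = ψ i u' := by
      intro i u u' hu hu' huu
      have := pot_compare ((taylor (k u' - k u)).toAddMonoidHom) (cP cl k γ0) (cP cl k γ0)
        (wd (w i)) u u' (by
          intro t ht a
          have p1 : PathIn T t u := fun t' ht' => hpath i u hu t' (ht'.trans ht)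
          have p2 : PathIn T t u' := fun t' ht' => hpath i u' hu' t' (ht'.trans ht)
          have e1 := hdet.path p1 p2 huu
          have e2 := Cmp.path hdet hk p1 p2 huu
          rcases a with a | a
          · simp [cP]
          · simp only [cP, Sum.elim_inr, LinearMap.toAddMonoidHom_coe]
            rw [taylor_taylor, e1]
            congr 2
            linear_combination -e2)
      rw [mk_wd] at this
      simp only [hψ]
      have h3 : D0 i u' = taylor (k u' - k u) (D0 i u) := this
      rw [h3, taylor_taylor]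
      congr 2
      ring
    set β' : I → V → 𝔽[X] := fun i v =>
      if h : ∃ u, (i, u) ∈ Bw ∧ cl u = v then β i v - ψ i h.choose else 0 with hβ'
    have hβ'deg : ∀ i v, (β' i v).degree < (d : ℕ) := by
      intro i v
      simp only [hβ']
      split_ifs with h
      · obtain ⟨hc1, hc2⟩ := h.choose_spec
        rw [degree_lt_iff_coeff_zero]
        intro e he
        rcases Nat.eq_or_lt_of_le he with he | he
        · subst he
          rw [coeff_sub, hψtop i _ hc1, hc2, sub_self]
        · have q1 := (degree_lt_iff_coeff_zero _ _).1 (hβ i v) e (by omega)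
          have q2 := (degree_lt_iff_coeff_zero _ _).1 (hψdeg i h.choose) e (by omega)
          rw [coeff_sub, q1, q2, sub_self]
      · rw [degree_zero]; exact WithBot.bot_lt_coe _
    obtain ⟨γ1, hγ1⟩ := ih β' hβ'deg
    refine ⟨fun v j => γ0 v j + γ1 v j, ?_⟩
    intro i u hiu
    have hadd : cP cl k (fun v j => γ0 v j + γ1 v j) =
        fun u a => cP cl k γ0 u a + cP cl k γ1 u a := by
      funext u a
      rcases a with a | a
      · simp [cP]
      · simp [cP]
    rw [hadd, pot_add, pot_add]
    have e1 := hγ1 i u hiu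
    have hex : ∃ u', (i, u') ∈ Bw ∧ cl u' = cl u := ⟨u, hiu, rfl⟩
    have e2 : β' i (cl u) = β i (cl u) - ψ i u := by
      simp only [hβ']
      rw [dif_pos hex]
      rw [hψcl i _ u hex.choose_spec.1 hiu hex.choose_spec.2]
    rw [e2, map_sub] at e1
    have e3 : taylor (k u) (ψ i u) = D0 i u := by
      simp only [hψ]; rw [taylor_taylor]; simp
    rw [e3] at e1
    have e4 : D0 i u = pot (cP cl k γ0) (w i * u) - pot (cP cl k γ0) u := rfl
    rw [e4] at e1
    linear_combination e1

open Polynomial in
/-- The key step: passing to the refined labelling preserves solvability. -/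
lemma Star.refine {T : Set (FreeGroup (A ⊕ J))} (hT : T.Finite)
    {Bw : Set (I × FreeGroup (A ⊕ J))}
    {w : I → FreeGroup (A ⊕ J)} {cl : FreeGroup (A ⊕ J) → V} {k : FreeGroup (A ⊕ J) → 𝔽}
    (hdet : Det T cl) (hk : Cmp T cl k)
    (hpath : ∀ i u, (i, u) ∈ Bw → PathIn T (wd (w i)) u)
    (hstar : Star 𝔽 Bw w cl) : Star 𝔽 Bw w (fun u => (cl u, k u)) := by
  classical
  intro b
  set S : Finset 𝔽 := (hT.image k).toFinset with hS
  obtain ⟨γ, hγ⟩ := star_poly hdet hk hpath hstar S.card
    (fun i v => Lagrange.interpolate S id (fun q => b i (v, q))) (by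
      intro i v
      exact Lagrange.degree_interpolate_lt _ (Function.injective_id.injOn))
  refine ⟨fun p j => (γ p.1 j).eval p.2, ?_⟩
  intro i u hiu
  have := pot_compare ((leval (0 : 𝔽)).toAddMonoidHom) (cP cl k γ)
    (cX (fun u => (cl u, k u)) (fun (p : V × 𝔽) j => (γ p.1 j).eval p.2)) (wd (w i)) u u (by
      intro t _ a
      rcases a with a | a
      · simp [cP, cX]
      · simp only [cP, cX, Sum.elim_inr]
        change _ = eval 0 (taylor _ _)
        rw [taylor_eval, zero_add])
  rw [mk_wd] at this
  rw [this, hγ i u hiu]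
  change eval 0 (taylor _ _) = _
  rw [taylor_eval, zero_add]
  have hmem : k u ∈ S := by
    rw [hS, Set.Finite.mem_toFinset]
    exact ⟨u, (hpath i u hiu).start, rfl⟩
  have := Lagrange.eval_interpolate_at_node (s := S) (v := id) (fun q => b i (cl u, q))
    (Function.injective_id.injOn) hmem
  exact this

end Star

end Vale.Agent.H17.Howie
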