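import Vale.Agent.H1.LT2.Defs

/-!
Row GT of P371: the dual form of the Golden-Thompson inequality.
-/

open MeasureTheory Matrix Set Filter
open scoped ENNReal ComplexOrder Topology

namespace Vale.LT2.GT

variable {N : ℕ}

/-- complex powers of a diagonalised positive matrix. -/
noncomputable def pw (U : Mat N) (a : Fin N → ℝ) (z : ℂ) : Mat N :=
  U * diagonal (fun i => Complex.exp (z * (Real.log (a i) : ℂ))) * Uᴴ

theorem pw_mul {U : Mat N} (hU : Uᴴ * U = 1) (a : Fin N → ℝ) (z w : ℂ) :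
    pw U a z * pw U a w = pw U a (z + w) := by
  unfold pw
  have : U * diagonal (fun i => Complex.exp (z * (Real.log (a i) : ℂ))) * Uᴴ *
      (U * diagonal (fun i => Complex.exp (w * (Real.log (a i) : ℂ))) * Uᴴ) =
      U * (diagonal (fun i => Complex.exp (z * (Real.log (a i) : ℂ))) * (Uᴴ * U) *
      diagonal (fun i => Complex.exp (w * (Real.log (a i) : ℂ)))) * Uᴴ := by
    simp only [Matrix.mul_assoc]
  rw [this, hU, Matrix.mul_one, Matrix.diagonal_mul_diagonal]
  congr 3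
  ext i
  rw [← Complex.exp_add, add_mul]

theorem pw_zero {U : Mat N} (hU : U * Uᴴ = 1) (a : Fin N → ℝ) : pw U a 0 = 1 := by
  unfold pw
  have : (fun i => Complex.exp ((0 : ℂ) * (Real.log (a i) : ℂ))) = fun _ => 1 := by
    ext i; rw [zero_mul, Complex.exp_zero]
  rw [this, Matrix.diagonal_one, Matrix.mul_one, hU]

theorem pw_one {U : Mat N} {a : Fin N → ℝ} (ha : ∀ i, 0 < a i) :
    pw U a 1 = U * diagonal (fun i => (a i : ℂ)) * Uᴴ := by
  unfold pw
  congr 3
  ext i
  rw [one_mul, ← Complex.ofReal_exp, Real.exp_log (ha i)]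

theorem pw_conj (U : Mat N) (a : Fin N → ℝ) (z : ℂ) :
    (pw U a z)ᴴ = pw U a (starRingEnd ℂ z) := by
  unfold pw
  rw [Matrix.conjTranspose_mul, Matrix.conjTranspose_mul, Matrix.conjTranspose_conjTranspose,
    Matrix.diagonal_conjTranspose, ← Matrix.mul_assoc]
  congr 3
  ext i
  simp only [Pi.star_apply, RCLike.star_def]
  rw [← Complex.exp_conj, map_mul, Complex.conj_ofReal]

theorem pw_apply (U : Mat N) (a : Fin N → ℝ) (z : ℂ) (i j : Fin N) :
    pw U a z i j = ∑ k, U i k * Complex.exp (z * (Real.log (a k) : ℂ)) * star (U j k) := by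
  unfold pw
  rw [Matrix.mul_apply]
  apply Finset.sum_congr rfl
  intro k _
  rw [Matrix.mul_diagonal, Matrix.conjTranspose_apply]

/-- the squared Hilbert-Schmidt norm. -/
noncomputable def hs (X : Mat N) : ℝ := ∑ i, ∑ j, ‖X i j‖ ^ 2

theorem hs_eq (X : Mat N) : ((Xᴴ * X).trace) = (hs X : ℂ) := by
  unfold hs
  rw [Matrix.trace]
  simp only [Matrix.diag_apply, Matrix.mul_apply, Matrix.conjTranspose_apply]
  rw [Finset.sum_comm]
  push_cast
  apply Finset.sum_congr rfl
  intro i _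
  apply Finset.sum_congr rfl
  intro j _
  rw [RCLike.star_def, Complex.conj_mul']

theorem hs_nonneg (X : Mat N) : 0 ≤ hs X := by unfold hs; positivity

theorem hs_left {V : Mat N} (hV : Vᴴ * V = 1) (X : Mat N) : hs (V * X) = hs X := by
  have h : ((hs (V * X) : ℝ) : ℂ) = (hs X : ℂ) := by
    rw [← hs_eq, ← hs_eq, Matrix.conjTranspose_mul]
    have : Xᴴ * Vᴴ * (V * X) = Xᴴ * (Vᴴ * V) * X := by simp only [Matrix.mul_assoc]
    rw [this, hV, Matrix.mul_one]
  exact_mod_cast h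

theorem hs_right {V : Mat N} (hV : V * Vᴴ = 1) (X : Mat N) : hs (X * V) = hs X := by
  have h : ((hs (X * V) : ℝ) : ℂ) = (hs X : ℂ) := by
    rw [← hs_eq, ← hs_eq, Matrix.conjTranspose_mul]
    have : Vᴴ * Xᴴ * (X * V) = Vᴴ * (Xᴴ * X * V) := by simp only [Matrix.mul_assoc]
    rw [this, Matrix.trace_mul_comm, Matrix.mul_assoc, hV, Matrix.mul_one]
  exact_mod_cast h

/-- Cauchy-Schwarz for the trace. -/
theorem trace_le (X Z : Mat N) : ‖(X * Z).trace‖ ≤ √(hs X) * √(hs Z) := by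
  have h1 : (X * Z).trace = ∑ i, ∑ j, X i j * Z j i := by
    rw [Matrix.trace]
    simp only [Matrix.diag_apply, Matrix.mul_apply]
  have h2 : hs Z = ∑ i, ∑ j, ‖Z j i‖ ^ 2 := by
    unfold hs
    rw [Finset.sum_comm]
  rw [h1, h2]
  unfold hs
  rw [← Finset.sum_product', ← Finset.sum_product', ← Finset.sum_product']
  have h3 : ‖∑ x ∈ (Finset.univ : Finset (Fin N)) ×ˢ (Finset.univ : Finset (Fin N)),
      X x.1 x.2 * Z x.2 x.1‖ ≤ ∑ x ∈ (Finset.univ : Finset (Fin N)) ×ˢ Finset.univ,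
        ‖X x.1 x.2‖ * ‖Z x.2 x.1‖ := by
    refine (norm_sum_le _ _).trans (le_of_eq ?_)
    apply Finset.sum_congr rfl
    intro x _
    rw [norm_mul]
  refine h3.trans ?_
  exact Real.sum_mul_le_sqrt_mul_sqrt _ _ _

theorem hasDerivAt_pw (U : Mat N) (a : Fin N → ℝ) (z : ℂ) (i j : Fin N) :
    HasDerivAt (fun w => pw U a w i j)
      (∑ k, U i k * (Complex.exp (z * (Real.log (a k) : ℂ)) * (Real.log (a k) : ℂ)) *
        star (U j k)) z := by
  have h : (fun w => pw U a w i j) = fun w =>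
      ∑ k, U i k * Complex.exp (w * (Real.log (a k) : ℂ)) * star (U j k) := by
    ext w; exact pw_apply U a w i j
  rw [h]
  apply HasDerivAt.fun_sum
  intro k _
  apply HasDerivAt.mul_const
  apply HasDerivAt.const_mul
  have h1 : HasDerivAt (fun w : ℂ => w * (Real.log (a k) : ℂ)) (Real.log (a k) : ℂ) z := by
    simpa using (hasDerivAt_id z).mul_const (Real.log (a k) : ℂ)
  exact h1.cexp

theorem norm_pw_le {U : Mat N} (a : Fin N → ℝ) (i j : Fin N) :
    ∃ C, ∀ z : ℂ, |z.re| ≤ 1 → ‖pw U a z i j‖ ≤ C := by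
  refine ⟨∑ k, ‖U i k‖ * Real.exp |Real.log (a k)| * ‖star (U j k)‖, fun z hz => ?_⟩
  rw [pw_apply]
  refine (norm_sum_le _ _).trans (Finset.sum_le_sum fun k _ => ?_)
  rw [norm_mul, norm_mul]
  gcongr
  rw [Complex.norm_exp]
  apply Real.exp_le_exp.2
  have : (z * (Real.log (a k) : ℂ)).re = z.re * Real.log (a k) := by
    rw [Complex.re_mul_ofReal]
  rw [this]
  calc z.re * Real.log (a k) ≤ |z.re * Real.log (a k)| := le_abs_self _
    _ = |z.re| * |Real.log (a k)| := abs_mul _ _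
    _ ≤ 1 * |Real.log (a k)| := by gcongr
    _ = _ := one_mul _

/-- derivative of the complex power. -/
noncomputable def dpw (U : Mat N) (a : Fin N → ℝ) (z : ℂ) : Mat N :=
  U * diagonal (fun i => Complex.exp (z * (Real.log (a i) : ℂ)) * (Real.log (a i) : ℂ)) * Uᴴ

theorem hasDerivAt_pw' (U : Mat N) (a : Fin N → ℝ) (z : ℂ) (i j : Fin N) :
    HasDerivAt (fun w => pw U a w i j) (dpw U a z i j) z := by
  have h := hasDerivAt_pw U a z i j
  convert h using 1
  unfold dpw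
  rw [Matrix.mul_apply]
  apply Finset.sum_congr rfl
  intro k _
  rw [Matrix.mul_diagonal, Matrix.conjTranspose_apply]

theorem hasDerivAt_mul_entry {P Q : ℂ → Mat N} {P' Q' : Mat N} {z : ℂ}
    (hP : ∀ i j, HasDerivAt (fun w => P w i j) (P' i j) z)
    (hQ : ∀ i j, HasDerivAt (fun w => Q w i j) (Q' i j) z) (i j : Fin N) :
    HasDerivAt (fun w => (P w * Q w) i j) ((P' * Q z + P z * Q') i j) z := by
  have h : (fun w => (P w * Q w) i j) = fun w => ∑ k, P w i k * Q w k j := by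
    ext w; rw [Matrix.mul_apply]
  rw [h, Matrix.add_apply, Matrix.mul_apply, Matrix.mul_apply, ← Finset.sum_add_distrib]
  exact HasDerivAt.fun_sum fun k _ => (hP i k).mul (hQ k j)

theorem hasDerivAt_trace {P : ℂ → Mat N} {P' : Mat N} {z : ℂ}
    (hP : ∀ i j, HasDerivAt (fun w => P w i j) (P' i j) z) :
    HasDerivAt (fun w => (P w).trace) P'.trace z := by
  unfold Matrix.trace
  exact HasDerivAt.fun_sum fun k _ => hP k k

theorem unit_left {U : Mat N} (h1 : Uᴴ * U = 1) (h2 : U * Uᴴ = 1) (a : Fin N → ℝ) {w : ℂ}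
    (hw : w.re = 0) : (pw U a w)ᴴ * pw U a w = 1 := by
  rw [pw_conj, pw_mul h1]
  have : starRingEnd ℂ w + w = 0 := by
    apply Complex.ext <;> simp [hw]
  rw [this, pw_zero h2]

theorem unit_right {U : Mat N} (h1 : Uᴴ * U = 1) (h2 : U * Uᴴ = 1) (a : Fin N → ℝ) {w : ℂ}
    (hw : w.re = 0) : pw U a w * (pw U a w)ᴴ = 1 := by
  rw [pw_conj, pw_mul h1]
  have : w + starRingEnd ℂ w = 0 := by
    apply Complex.ext <;> simp [hw]
  rw [this, pw_zero h2]

theorem half_herm (U : Mat N) (a : Fin N → ℝ) : (pw U a (1 / 2))ᴴ = pw U a (1 / 2) := by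
  rw [pw_conj]
  congr 1
  apply Complex.ext <;> simp

section main
variable {UA UB UY : Mat N} {a b y : Fin N → ℝ}
  (hA1 : UAᴴ * UA = 1) (hA2 : UA * UAᴴ = 1) (hB1 : UBᴴ * UB = 1) (hB2 : UB * UBᴴ = 1)
  (hY1 : UYᴴ * UY = 1) (hY2 : UY * UYᴴ = 1)

variable (UA UB UY a b y) in
/-- the interpolating function. -/
noncomputable def FF (z : ℂ) : ℂ :=
  (pw UY y (1 - z / 2) * (pw UA a (z / 2) * pw UB b (z / 2))).trace

include hY1 in
theorem hs_half : ((hs (pw UY y (1 / 2)) : ℝ) : ℂ) = (pw UY y 1).trace := by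
  rw [← hs_eq, half_herm, pw_mul hY1]
  norm_num

include hA1 hB1 in
theorem hs_half2 : ((hs (pw UA a (1 / 2) * pw UB b (1 / 2)) : ℝ) : ℂ) =
    (pw UA a 1 * pw UB b 1).trace := by
  rw [← hs_eq, Matrix.conjTranspose_mul, half_herm, half_herm]
  have : pw UB b (1 / 2) * pw UA a (1 / 2) * (pw UA a (1 / 2) * pw UB b (1 / 2)) =
      pw UB b (1 / 2) * ((pw UA a (1 / 2) * pw UA a (1 / 2)) * pw UB b (1 / 2)) := by
    simp only [Matrix.mul_assoc]
  rw [this, Matrix.trace_mul_comm, Matrix.mul_assoc, pw_mul hA1, pw_mul hB1]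
  norm_num

include hA1 hA2 hB1 hB2 hY1 hY2 in
theorem bound_zero {z : ℂ} (hz : z.re = 0) :
    ‖FF UA UB UY a b y z‖ ≤ hs (pw UY y (1 / 2)) := by
  have h0 : (z / 2).re = 0 := by simp [hz]
  have h0' : (-(z / 2)).re = 0 := by rw [Complex.neg_re, h0, neg_zero]
  have e : pw UY y (1 - z / 2) * (pw UA a (z / 2) * pw UB b (z / 2)) =
      pw UY y (1 / 2) * (pw UY y (1 / 2) * pw UY y (-(z / 2)) * pw UA a (z / 2) *
        pw UB b (z / 2)) := by
    have : pw UY y (1 - z / 2) = pw UY y (1 / 2) * (pw UY y (1 / 2) * pw UY y (-(z / 2))) := by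
      rw [pw_mul hY1, pw_mul hY1]
      congr 1
      ring
    rw [this]
    simp only [Matrix.mul_assoc]
  unfold FF
  rw [e]
  refine (trace_le _ _).trans ?_
  rw [hs_right (unit_right hB1 hB2 b h0), hs_right (unit_right hA1 hA2 a h0),
    hs_right (unit_right hY1 hY2 y h0'), Real.mul_self_sqrt (hs_nonneg _)]

include hA1 hA2 hB1 hB2 hY1 hY2 in
theorem bound_one {z : ℂ} (hz : z.re = 1) :
    ‖FF UA UB UY a b y z‖ ≤
      √(hs (pw UY y (1 / 2))) * √(hs (pw UA a (1 / 2) * pw UB b (1 / 2))) := by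
  have h0 : (z / 2 - 1 / 2).re = 0 := by
    have : z / 2 - 1 / 2 = (z - 1) / 2 := by ring
    rw [this]
    simp [hz]
  have h0' : (-(z / 2 - 1 / 2)).re = 0 := by rw [Complex.neg_re, h0, neg_zero]
  have e : pw UY y (1 - z / 2) * (pw UA a (z / 2) * pw UB b (z / 2)) =
      pw UY y (1 / 2) * (pw UY y (-(z / 2 - 1 / 2)) * (pw UA a (z / 2 - 1 / 2) *
        (pw UA a (1 / 2) * pw UB b (1 / 2) * pw UB b (z / 2 - 1 / 2)))) := by
    have e1 : pw UY y (1 - z / 2) = pw UY y (1 / 2) * pw UY y (-(z / 2 - 1 / 2)) := by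
      rw [pw_mul hY1]
      congr 1
      ring
    have e2 : pw UA a (z / 2) = pw UA a (z / 2 - 1 / 2) * pw UA a (1 / 2) := by
      rw [pw_mul hA1]
      congr 1
      ring
    have e3 : pw UB b (z / 2) = pw UB b (1 / 2) * pw UB b (z / 2 - 1 / 2) := by
      rw [pw_mul hB1]
      congr 1
      ring
    rw [e1, e2, e3]
    simp only [Matrix.mul_assoc]
  unfold FF
  rw [e]
  refine (trace_le _ _).trans ?_
  rw [hs_left (unit_left hY1 hY2 y h0'), hs_left (unit_left hA1 hA2 a h0),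
    hs_right (unit_right hB1 hB2 b h0)]

theorem hasDerivAt_FF (z : ℂ) :
    HasDerivAt (FF UA UB UY a b y)
      ((((-1 / 2 : ℂ) • dpw UY y (1 - z / 2)) * (pw UA a (z / 2) * pw UB b (z / 2)) +
        pw UY y (1 - z / 2) * (((1 / 2 : ℂ) • dpw UA a (z / 2)) * pw UB b (z / 2) +
          pw UA a (z / 2) * ((1 / 2 : ℂ) • dpw UB b (z / 2)))).trace) z := by
  unfold FF
  have hz1 : HasDerivAt (fun w : ℂ => 1 - w / 2) (-1 / 2) z := by
    have h := ((hasDerivAt_id z).div_const 2).const_sub 1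
    exact h.congr_deriv (by ring)
  have hz2 : HasDerivAt (fun w : ℂ => w / 2) (1 / 2) z := (hasDerivAt_id z).div_const 2
  have k1 : ∀ i j, HasDerivAt (fun w => pw UY y (1 - w / 2) i j)
      (((-1 / 2 : ℂ) • dpw UY y (1 - z / 2)) i j) z := by
    intro i j
    have h := (hasDerivAt_pw' UY y (1 - z / 2) i j).comp z hz1
    exact h.congr_deriv (by rw [Matrix.smul_apply, smul_eq_mul, mul_comm])
  have k2 : ∀ i j, HasDerivAt (fun w => pw UA a (w / 2) i j)
      (((1 / 2 : ℂ) • dpw UA a (z / 2)) i j) z := by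
    intro i j
    have h := (hasDerivAt_pw' UA a (z / 2) i j).comp z hz2
    exact h.congr_deriv (by rw [Matrix.smul_apply, smul_eq_mul, mul_comm])
  have k3 : ∀ i j, HasDerivAt (fun w => pw UB b (w / 2) i j)
      (((1 / 2 : ℂ) • dpw UB b (z / 2)) i j) z := by
    intro i j
    have h := (hasDerivAt_pw' UB b (z / 2) i j).comp z hz2
    exact h.congr_deriv (by rw [Matrix.smul_apply, smul_eq_mul, mul_comm])
  have k4 := hasDerivAt_mul_entry k2 k3
  have k5 := hasDerivAt_mul_entry k1 k4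
  exact hasDerivAt_trace k5

theorem bdd_FF : ∃ C : ℝ, ∀ z : ℂ, 0 ≤ z.re → z.re ≤ 1 → ‖FF UA UB UY a b y z‖ ≤ C := by
  choose CY hCY using fun i j => norm_pw_le (U := UY) y i j
  choose CA hCA using fun i j => norm_pw_le (U := UA) a i j
  choose CB hCB using fun i j => norm_pw_le (U := UB) b i j
  refine ⟨∑ i, ∑ j, CY i j * ∑ k, CA j k * CB k i, fun z h0 h1 => ?_⟩
  have hr1 : |(1 - z / 2).re| ≤ 1 := by
    have : (1 - z / 2).re = 1 - z.re / 2 := by simp
    rw [this, abs_le]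
    constructor <;> linarith
  have hr2 : |(z / 2).re| ≤ 1 := by
    have : (z / 2).re = z.re / 2 := by simp
    rw [this, abs_le]
    constructor <;> linarith
  unfold FF
  rw [Matrix.trace]
  refine (norm_sum_le _ _).trans (Finset.sum_le_sum fun i _ => ?_)
  rw [Matrix.diag_apply, Matrix.mul_apply]
  refine (norm_sum_le _ _).trans (Finset.sum_le_sum fun j _ => ?_)
  rw [norm_mul, Matrix.mul_apply]
  have hY0 : 0 ≤ CY i j := (norm_nonneg _).trans (hCY i j _ hr1)
  refine mul_le_mul (hCY i j _ hr1) ?_ (norm_nonneg _) hY0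
  refine (norm_sum_le _ _).trans (Finset.sum_le_sum fun k _ => ?_)
  rw [norm_mul]
  exact mul_le_mul (hCA j k _ hr2) (hCB k i _ hr2) (norm_nonneg _)
    ((norm_nonneg _).trans (hCA j k _ hr2))

include hA1 hA2 hB1 hB2 hY1 hY2 in
theorem interp {x : ℝ} (h0 : 0 ≤ x) (h1 : x ≤ 1) {s : ℝ}
    (hs' : hs (pw UA a (1 / 2) * pw UB b (1 / 2)) ≤ s) :
    ‖FF UA UB UY a b y x‖ ≤ hs (pw UY y (1 / 2)) ^ (1 - x) *
      (√(hs (pw UY y (1 / 2))) * √s) ^ x := by
  have hd : Differentiable ℂ (FF UA UB UY a b y) :=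
    fun z => (hasDerivAt_FF z).differentiableAt
  obtain ⟨C, hC⟩ := bdd_FF (UA := UA) (UB := UB) (UY := UY) (a := a) (b := b) (y := y)
  have := Complex.HadamardThreeLines.norm_le_interp_of_mem_verticalClosedStrip₀₁'
    (FF UA UB UY a b y) (z := (x : ℂ)) (a := hs (pw UY y (1 / 2)))
    (b := √(hs (pw UY y (1 / 2))) * √s) ?_ hd.diffContOnCl ?_ ?_ ?_
  · simpa using this
  · constructor
    · simpa using h0
    · simpa using h1
  · refine ⟨C, ?_⟩
    rintro _ ⟨z, hz, rfl⟩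
    exact hC z hz.1 hz.2
  · intro z hz
    exact bound_zero hA1 hA2 hB1 hB2 hY1 hY2 hz
  · intro z hz
    refine (bound_one hA1 hA2 hB1 hB2 hY1 hY2 hz).trans ?_
    gcongr

include hA1 hA2 hB1 hB2 hY1 hY2 in
theorem deriv_ineq {s : ℝ} (hs0 : 0 < s) (ht : 0 < hs (pw UY y (1 / 2)))
    (hs' : hs (pw UA a (1 / 2) * pw UB b (1 / 2)) ≤ s) :
    ((((-1 / 2 : ℂ) • dpw UY y 1) +
        pw UY y 1 * (((1 / 2 : ℂ) • dpw UA a 0) + ((1 / 2 : ℂ) • dpw UB b 0))).trace).re ≤
      hs (pw UY y (1 / 2)) * ((Real.log s - Real.log (hs (pw UY y (1 / 2)))) / 2) := by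
  set t := hs (pw UY y (1 / 2)) with ht'
  set c := (Real.log s - Real.log t) / 2 with hc
  have hD := hasDerivAt_FF (UA := UA) (UB := UB) (UY := UY) (a := a) (b := b) (y := y) 0
  have e0 : (1 : ℂ) - 0 / 2 = 1 := by ring
  have e1 : (0 : ℂ) / 2 = 0 := by ring
  rw [e0, e1, pw_zero hA2, pw_zero hB2, Matrix.mul_one, Matrix.mul_one, Matrix.mul_one,
    Matrix.one_mul] at hD
  have hR := hD.real_of_complex (z := 0)
  have hE : HasDerivAt (fun x : ℝ => t * Real.exp (c * x)) (t * c) 0 := by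
    have h1 : HasDerivAt (fun x : ℝ => c * x) c 0 := by
      simpa using (hasDerivAt_id (0 : ℝ)).const_mul c
    have h2 := h1.exp.const_mul t
    refine h2.congr_deriv ?_
    rw [mul_zero, Real.exp_zero, one_mul]
  have hG := hE.sub hR
  have hF0 : (FF UA UB UY a b y 0).re = t := by
    unfold FF
    rw [e0, e1, pw_zero hA2, pw_zero hB2, Matrix.mul_one, Matrix.mul_one, ← hs_half hY1]
    simp [ht']
  have hpos : ∀ x : ℝ, 0 ≤ x → x ≤ 1 →
      0 ≤ t * Real.exp (c * x) - (FF UA UB UY a b y x).re := by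
    intro x h0 h1
    have h2 := interp (y := y) hA1 hA2 hB1 hB2 hY1 hY2 h0 h1 hs'
    have h3 : t ^ (1 - x) * (√t * √s) ^ x = t * Real.exp (c * x) := by
      have h4 : √t * √s = Real.exp ((Real.log t + Real.log s) / 2) := by
        rw [← Real.sqrt_mul ht.le, Real.sqrt_eq_iff_mul_self_eq (by positivity)
          (Real.exp_pos _).le, ← Real.exp_add]
        rw [show (Real.log t + Real.log s) / 2 + (Real.log t + Real.log s) / 2 =
          Real.log t + Real.log s by ring, Real.exp_add, Real.exp_log ht, Real.exp_log hs0]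
      rw [h4, ← Real.exp_mul, Real.rpow_def_of_pos ht, ← Real.exp_add]
      have h5 : t = Real.exp (Real.log t) := (Real.exp_log ht).symm
      conv_rhs => rw [h5, ← Real.exp_add]
      congr 1
      rw [hc]
      ring
    rw [← ht', h3] at h2
    have h6 := (Complex.re_le_norm (FF UA UB UY a b y x)).trans h2
    linarith
  have hslope := hG.tendsto_slope_zero_right
  have hge := ge_of_tendsto hslope (b := 0) (by
    have hmem : Ioo (0 : ℝ) 1 ∈ 𝓝[>] (0 : ℝ) := Ioo_mem_nhdsGT one_pos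
    filter_upwards [hmem] with x hx
    have h1 := hpos x hx.1.le hx.2.le
    simp only [Pi.sub_apply, zero_add, mul_zero, Real.exp_zero, mul_one, Complex.ofReal_zero,
      smul_eq_mul]
    rw [hF0, sub_self, sub_zero]
    exact mul_nonneg (inv_nonneg.2 hx.1.le) h1)
  linarith

end main

/-- diagonalisation. -/
theorem diag_of_posDef {A : Mat N} (hA : A.PosDef) : ∃ (U : Mat N) (a : Fin N → ℝ),
    Uᴴ * U = 1 ∧ U * Uᴴ = 1 ∧ (∀ i, 0 < a i) ∧ A = pw U a 1 ∧
      cfc Real.log A = dpw U a 0 ∧ A * cfc Real.log A = dpw U a 1 := by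
  have hH := hA.isHermitian
  set U : Mat N := (hH.eigenvectorUnitary : Mat N) with hU
  have h1 : Uᴴ * U = 1 := by
    have := Unitary.coe_star_mul_self hH.eigenvectorUnitary
    exact this
  have h2 : U * Uᴴ = 1 := by
    have := Unitary.coe_mul_star_self hH.eigenvectorUnitary
    exact this
  have hpos : ∀ i, 0 < hH.eigenvalues i := hA.eigenvalues_pos
  have hA1 : A = pw U hH.eigenvalues 1 := by
    rw [pw_one hpos]
    exact hH.spectral_theorem
  have hlog : cfc Real.log A = dpw U hH.eigenvalues 0 := by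
    rw [hH.cfc_eq]
    unfold dpw Matrix.IsHermitian.cfc
    rw [Unitary.conjStarAlgAut_apply]
    congr 3
    ext i
    simp
  refine ⟨U, hH.eigenvalues, h1, h2, hpos, hA1, hlog, ?_⟩
  rw [hlog]
  refine (congrArg (fun Z => Z * dpw U hH.eigenvalues 0) hA1).trans ?_
  unfold pw dpw
  have : ∀ D E : Mat N, U * D * Uᴴ * (U * E * Uᴴ) = U * (D * (Uᴴ * U) * E) * Uᴴ := by
    intro D E
    simp only [Matrix.mul_assoc]
  rw [this, h1, Matrix.mul_one, Matrix.diagonal_mul_diagonal]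
  congr 3
  ext i
  rw [zero_mul, Complex.exp_zero, one_mul]

end Vale.LT2.GT

namespace Vale.LT2

variable {N : ℕ}

open Vale.LT2.GT

/-! ### Row GT -/
theorem gt_dual (A B Y : Mat N) (hA : A.PosDef) (hB : B.PosDef) (hY : Y.PosDef) :
    tp Y (cfc Real.log A + cfc Real.log B)
      ≤ tp Y (cfc Real.log Y) - (Y.trace).re + tp A B := by
  rcases Nat.eq_zero_or_pos N with hN | hN
  · subst hN
    simp [tp, Matrix.trace]
  have : Nonempty (Fin N) := ⟨⟨0, hN⟩⟩
  obtain ⟨UA, a, hA1, hA2, ha, hAe, hAl, -⟩ := diag_of_posDef hA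
  obtain ⟨UB, b, hB1, hB2, hb, hBe, hBl, -⟩ := diag_of_posDef hB
  obtain ⟨UY, y, hY1, hY2, hy, hYe, hYl, hYY⟩ := diag_of_posDef hY
  have ht : hs (pw UY y (1 / 2)) = (Y.trace).re := by
    have := hs_half (UY := UY) (y := y) hY1
    rw [← hYe] at this
    rw [← this, Complex.ofReal_re]
  have hs2 : hs (pw UA a (1 / 2) * pw UB b (1 / 2)) = tp A B := by
    have := hs_half2 (UA := UA) (UB := UB) (a := a) (b := b) hA1 hB1
    rw [← hAe, ← hBe] at this
    unfold tp
    rw [← this, Complex.ofReal_re]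
  have htpos : 0 < (Y.trace).re := by
    have := hY.trace_pos
    exact (Complex.pos_iff.1 this).1
  apply le_of_forall_pos_le_add
  intro ε hε
  have hs0 : 0 ≤ tp A B := by rw [← hs2]; exact hs_nonneg _
  have key := deriv_ineq (s := tp A B + ε) hA1 hA2 hB1 hB2 hY1 hY2 (by linarith)
    (by rw [ht]; exact htpos) (by rw [hs2]; linarith)
  rw [ht, ← hYe, ← hYY, ← hAl, ← hBl] at key
  have e : ((((-1 / 2 : ℂ) • (Y * cfc Real.log Y)) +
        Y * (((1 / 2 : ℂ) • cfc Real.log A) + ((1 / 2 : ℂ) • cfc Real.log B))).trace).re =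
      1 / 2 * (tp Y (cfc Real.log A + cfc Real.log B) - tp Y (cfc Real.log Y)) := by
    unfold tp
    rw [← smul_add, Matrix.mul_smul, Matrix.trace_add, Matrix.trace_smul, Matrix.trace_smul]
    simp only [smul_eq_mul, Complex.add_re, Complex.mul_re]
    have e1 : ((-1 / 2 : ℂ)).re = -1 / 2 := by norm_num
    have e2 : ((-1 / 2 : ℂ)).im = 0 := by norm_num
    have e3 : ((1 / 2 : ℂ)).re = 1 / 2 := by norm_num
    have e4 : ((1 / 2 : ℂ)).im = 0 := by norm_num
    rw [e1, e2, e3, e4]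
    ring
  rw [e] at key
  have hlog : Real.log (tp A B + ε) - Real.log (Y.trace).re ≤
      (tp A B + ε) / (Y.trace).re - 1 := by
    rw [← Real.log_div (by linarith) htpos.ne']
    exact Real.log_le_sub_one_of_pos (div_pos (by linarith) htpos)
  have h2 : (Y.trace).re * ((Real.log (tp A B + ε) - Real.log (Y.trace).re) / 2) ≤
      (tp A B + ε - (Y.trace).re) / 2 := by
    have := mul_le_mul_of_nonneg_left hlog htpos.le
    have h3 : (Y.trace).re * ((tp A B + ε) / (Y.trace).re - 1) = tp A B + ε - (Y.trace).re := by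
      field_simp
    rw [h3] at this
    linarith
  linarith

end Vale.LT2
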